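import Vale.Agent.P231.SEG.Formal

/-!
# P231, stage 3, block SEG (3): the push-forward in terms of the Pontryagin forms
-/

set_option linter.unusedSectionVars false
set_option linter.unusedVariables false

open MeasureTheory Set Module Filter Topology
open scoped ContDiff

namespace Vale.Agent.P231.SEG

open Vale.Agent.P231.Fm Vale.Agent.P231.W Vale.Agent.P231.H584 Vale.Agent.P231.Co
  Vale.Agent.P231.WG Vale.Agent.P231.S2T
open Vale.Agent.P231.Fm (Sm Dif Form Lam)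

namespace Seg

variable {B S Fr : Type*} {DB : Dif B} {DS : Dif S} {DF : Dif Fr}
variable {F : Type} [NormedAddCommGroup F] [InnerProductSpace ℝ F] [FiniteDimensional ℝ F]
  [MeasurableSpace F] [BorelSpace F] {m : ℕ} (o : OrthonormalBasis (Fin m) ℝ F)
variable {π : S → B} {q : Fr → B} {ev : Fr × F → S} (s : Seg DB DS DF F π q ev)

/-- the two flows as a family -/
def fam : Fam DS Bool where
  Φ b := cond b s.Φ s.R
  map b := by cases b; exacts [s.hR, s.hΦ]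

theorem B_iff {w : Form DS} : s.fam.B w ↔ Basic s.Φ s.hΦ w ∧ Basic s.R s.hR w :=
  ⟨fun h => ⟨h true, h false⟩, fun h b => by cases b; exacts [h.2, h.1]⟩

/-- closed even basic forms of the base -/
structure CB (a : Form DB) : Prop where
  even : a.sg = a
  closed : a.d = 0
  basic : Basic s.φ s.hφ a

variable {s}

theorem CB.mul {a b : Form DB} (ha : s.CB a) (hb : s.CB b) : s.CB (a * b) :=
  ⟨mul_even ha.even hb.even, mul_closed ha.closed hb.closed, Basic.mul ha.basic hb.basic⟩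

theorem CB.add {a b : Form DB} (ha : s.CB a) (hb : s.CB b) : s.CB (a + b) :=
  ⟨by rw [Form.sg_add, ha.even, hb.even], by rw [Form.d_add, ha.closed, hb.closed, add_zero],
    Basic.add ha.basic hb.basic⟩

theorem CB.smul {a : Form DB} (c : ℝ) (ha : s.CB a) : s.CB (c • a) :=
  ⟨by rw [Form.sg_smul, ha.even], by rw [Form.d_smul, ha.closed, smul_zero],
    Basic.smul c ha.basic⟩

theorem CB.one : s.CB 1 := ⟨Form.sg_one, Form.d_one, Basic.one⟩

theorem CB.zero : s.CB 0 := ⟨Form.sg_zero, Form.d_zero, Basic.zero⟩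

variable (s) in
/-- the closed even basic forms of the base as a subalgebra -/
def BB : Subalgebra ℝ (Form DB) where
  carrier := {a | s.CB a}
  mul_mem' := fun ha hb => CB.mul ha hb
  add_mem' := fun ha hb => CB.add ha hb
  algebraMap_mem' := fun r => by
    rw [Algebra.algebraMap_eq_smul_one]
    exact CB.smul r CB.one

noncomputable instance : CommRing s.BB :=
  { s.BB.toRing with
    mul_comm := fun a b => Subtype.ext (even_comm a.2.even b.1).eq }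

variable (s) in
/-- pull-back of closed even basic forms -/
noncomputable def piB : s.BB →ₐ[ℝ] s.fam.Bas :=
  ((Form.pullA π s.bun.hπ).comp s.BB.val).codRestrict s.fam.Bas fun w =>
    ⟨by
      change (s.pi w.1).sg = s.pi w.1
      rw [← s.pi_sg, w.2.even], by
      change (s.pi w.1).d = 0
      rw [← s.pi_d, w.2.closed]
      exact map_zero (Form.pullA π s.bun.hπ),
      s.B_iff.2 ⟨s.basic_Φ_pi w.2.basic, s.basic_R_pi w.1⟩⟩

theorem coe_piB (a : s.BB) : (s.piB a : Form DS) = s.pi a.1 := rfl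

variable {l : Form DB →ₗ[ℝ] ℝ} {θ : Form DB} {η : Form DS}

/-- the class `h` -/
noncomputable def Con.hB (h : s.Con θ η) : s.fam.Bas :=
  ⟨η.d, sg_d_of_odd h.hηo, Form.d_d _, s.B_iff.2 ⟨h.basic_hΦ, h.basic_hR⟩⟩

/-- the class `e` of the base -/
noncomputable def Con.eB (h : s.Con θ η) : s.BB := ⟨θ.d, sg_d_of_odd h.hθo, Form.d_d _, h.basic_e⟩

variable (s) (l) (η) in
/-- the push-forward `a ↦ l (∫ η a)` -/
noncomputable def PF (a : s.fam.Bas) : ℝ := l (s.I o (η * a.1))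

theorem PF_add (a b : s.fam.Bas) : s.PF o l η (a + b) = s.PF o l η a + s.PF o l η b := by
  unfold PF
  have h1 : ((a + b : s.fam.Bas) : Form DS) = a.1 + b.1 := rfl
  rw [h1, mul_add, I_add, map_add]

theorem PF_sub (a b : s.fam.Bas) : s.PF o l η (a - b) = s.PF o l η a - s.PF o l η b := by
  unfold PF
  have h1 : ((a - b : s.fam.Bas) : Form DS) = a.1 - b.1 := rfl
  rw [h1, mul_sub, I_sub, map_sub]

theorem PF_congr (h : s.Con θ η) (hQ : s.Q l) {a b : s.fam.Bas}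
    (hab : s.fam.qm a = s.fam.qm b) : s.PF o l η a = s.PF o l η b := by
  obtain ⟨γ, h1, h2⟩ := s.fam.exists_of_qm_eq hab
  rw [← sub_eq_zero, ← PF_sub]
  unfold PF
  have h3 : ((a - b : s.fam.Bas) : Form DS) = a.1 - b.1 := rfl
  rw [h3, h2]
  exact h.l_exact o hQ (s.B_iff.1 h1).1 (s.B_iff.1 h1).2

theorem PF_pi_mul (b : s.BB) (w : s.fam.Bas) :
    s.PF o l η (s.piB b * w) = l (b.1 * s.I o (η * w.1)) := by
  unfold PF
  have h1 : ((s.piB b * w : s.fam.Bas) : Form DS) = s.pi b.1 * w.1 := rfl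
  have h2 : (s.pi b.1).sg = s.pi b.1 := by rw [← s.pi_sg, b.2.even]
  rw [h1, ← mul_assoc, ← Form.mul_comm_of_even h2 η, mul_assoc]
  congr 1
  have h3 : ∀ n : ℕ, Form.sg^[n] b.1 = b.1 := fun n => by
    induction n with
    | zero => rfl
    | succ n ih => rw [Function.iterate_succ_apply, b.2.even, ih]
  rw [I, pi, s.bun.SI_π_mul o, h3]
  rfl

/-- the fibre integrals of the powers of `h` -/
structure Nrm (s : Seg DB DS DF F π q ev) (η : Form DS) : Prop where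
  top : s.I o (η * η.d ^ 6) = 1
  low : ∀ j < 6, s.I o (η * η.d ^ j) = 0

theorem PF_top (h : s.Con θ η) (hn : s.Nrm o η) (b : s.BB) :
    s.PF o l η (s.piB b * h.hB ^ 6) = l b.1 := by
  rw [PF_pi_mul]
  have h1 : ((h.hB ^ 6 : s.fam.Bas) : Form DS) = η.d ^ 6 := rfl
  rw [h1, hn.top, mul_one]

theorem PF_low (h : s.Con θ η) (hn : s.Nrm o η) (b : s.BB) {j : ℕ} (hj : j < 6) :
    s.PF o l η (s.piB b * h.hB ^ j) = 0 := by
  rw [PF_pi_mul]
  have h1 : ((h.hB ^ j : s.fam.Bas) : Form DS) = η.d ^ j := rfl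
  rw [h1, hn.low j hj, mul_zero, map_zero]

/-- the push-forward of a polynomial in `h` -/
theorem PF_poly (h : s.Con θ η) (hn : s.Nrm o η) (b : ℕ → s.BB) :
    s.PF o l η (∑ j ∈ Finset.range 7, s.piB (b j) * h.hB ^ j) = l (b 6).1 := by
  simp only [Finset.sum_range_succ, Finset.range_zero, Finset.sum_empty, PF_add]
  have h0 : s.PF o l η 0 = 0 := by
    unfold PF
    have h1 : ((0 : s.fam.Bas) : Form DS) = 0 := rfl
    rw [h1, mul_zero]
    unfold I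
    rw [s.bun.SI_zero o, map_zero]
  rw [h0, PF_low o h hn _ (by norm_num : 0 < 6), PF_low o h hn _ (by norm_num : 1 < 6),
    PF_low o h hn _ (by norm_num : 2 < 6), PF_low o h hn _ (by norm_num : 3 < 6),
    PF_low o h hn _ (by norm_num : 4 < 6), PF_low o h hn _ (by norm_num : 5 < 6), PF_top o h hn]
  simp

/-- the Grothendieck relation -/
def Gr (h : s.Con θ η) (P1 P2 P3 : s.BB) : Prop :=
  s.fam.qm h.hB ^ 7 = s.fam.qm (s.piB P1) * s.fam.qm h.hB ^ 5 -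
    s.fam.qm (s.piB P2) * s.fam.qm h.hB ^ 3 + s.fam.qm (s.piB P3) * s.fam.qm h.hB

section Main

variable (h : s.Con θ η) (hQ : s.Q l) (hn : s.Nrm o η) {P1 P2 P3 : s.BB} (hG : Gr h P1 P2 P3)
include h hQ hn hG

theorem PF_eight : s.PF o l η ((s.piB h.eB + h.hB) ^ 8) =
    28 * l ((h.eB ^ 2 : s.BB) : Form DB) + l P1.1 := by
  let b : ℕ → s.BB := fun j => match j with
    | 0 => h.eB ^ 8
    | 1 => 8 * h.eB ^ 7 + 8 * h.eB * P3
    | 2 => 28 * h.eB ^ 6 + P3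
    | 3 => 56 * h.eB ^ 5 - 8 * h.eB * P2
    | 4 => 70 * h.eB ^ 4 - P2
    | 5 => 56 * h.eB ^ 3 + 8 * h.eB * P1
    | _ => (28 : ℕ) • h.eB ^ 2 + P1
  have h1 : s.fam.qm ((s.piB h.eB + h.hB) ^ 8) =
      s.fam.qm (∑ j ∈ Finset.range 7, s.piB (b j) * h.hB ^ j) := by
    simp only [Finset.sum_range_succ, Finset.range_zero, Finset.sum_empty, b, map_add, map_mul,
      map_pow, map_sub, map_zero, map_ofNat, nsmul_eq_mul, Nat.cast_ofNat]
    unfold Gr at hG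
    linear_combination (s.fam.qm h.hB + 8 * s.fam.qm (s.piB h.eB)) * hG
  rw [PF_congr o h hQ h1, PF_poly o h hn b]
  have h2 : ((b 6 : s.BB) : Form DB) = (28 : ℕ) • ((h.eB ^ 2 : s.BB) : Form DB) + P1.1 := rfl
  rw [h2, map_add, map_nsmul, nsmul_eq_mul, Nat.cast_ofNat]

theorem PF_ten : s.PF o l η ((s.piB h.eB + h.hB) ^ 10) =
    210 * l ((h.eB ^ 4 : s.BB) : Form DB) + 45 * l ((h.eB ^ 2 * P1 : s.BB) : Form DB) +
      l ((P1 ^ 2 - P2 : s.BB) : Form DB) := by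
  set e := s.fam.qm (s.piB h.eB) with he
  set x := s.fam.qm h.hB with hx
  let b : ℕ → s.BB := fun j => match j with
    | 0 => h.eB ^ 10
    | 1 => 10 * h.eB ^ 9 + 120 * h.eB ^ 3 * P3 + 10 * h.eB * (P1 * P3)
    | 2 => 45 * h.eB ^ 8 + 45 * h.eB ^ 2 * P3 + P1 * P3
    | 3 => 120 * h.eB ^ 7 - 120 * h.eB ^ 3 * P2 + 10 * h.eB * (P3 - P1 * P2)
    | 4 => 210 * h.eB ^ 6 - 45 * h.eB ^ 2 * P2 + (P3 - P1 * P2)
    | 5 => 252 * h.eB ^ 5 + 120 * h.eB ^ 3 * P1 + 10 * h.eB * (P1 ^ 2 - P2)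
    | _ => (210 : ℕ) • h.eB ^ 4 + (45 : ℕ) • (h.eB ^ 2 * P1) + (P1 ^ 2 - P2)
  have h1 : s.fam.qm ((s.piB h.eB + h.hB) ^ 10) =
      s.fam.qm (∑ j ∈ Finset.range 7, s.piB (b j) * h.hB ^ j) := by
    simp only [Finset.sum_range_succ, Finset.range_zero, Finset.sum_empty, b, map_add, map_mul,
      map_pow, map_sub, map_zero, map_ofNat, nsmul_eq_mul, Nat.cast_ofNat, ← he, ← hx]
    unfold Gr at hG
    rw [← hx] at hG
    set p1 := s.fam.qm (s.piB P1)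
    set p2 := s.fam.qm (s.piB P2)
    set p3 := s.fam.qm (s.piB P3)
    linear_combination (x ^ 3 + 10 * e * x ^ 2 + (45 * e ^ 2 + p1) * x + 120 * e ^ 3 +
      10 * e * p1) * hG
  rw [PF_congr o h hQ h1, PF_poly o h hn b]
  have h2 : l ((b 6 : s.BB) : Form DB) = (l.comp s.BB.val.toLinearMap) ((210 : ℕ) • h.eB ^ 4 +
    (45 : ℕ) • (h.eB ^ 2 * P1) + (P1 ^ 2 - P2)) := rfl
  rw [h2, map_add, map_add, map_nsmul, map_nsmul, nsmul_eq_mul, nsmul_eq_mul, Nat.cast_ofNat,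
    Nat.cast_ofNat]
  rfl

theorem PF_twelve : s.PF o l η ((s.piB h.eB + h.hB) ^ 12) =
    924 * l ((h.eB ^ 6 : s.BB) : Form DB) + 495 * l ((h.eB ^ 4 * P1 : s.BB) : Form DB) +
      66 * l ((h.eB ^ 2 * (P1 ^ 2 - P2) : s.BB) : Form DB) +
      l ((P1 ^ 3 - 2 * P1 * P2 + P3 : s.BB) : Form DB) := by
  set e := s.fam.qm (s.piB h.eB) with he
  set x := s.fam.qm h.hB with hx
  let c8 : s.BB := P1
  let c10 : s.BB := P1 ^ 2 - P2
  let c12 : s.BB := P1 ^ 3 - 2 * P1 * P2 + P3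
  -- `x ^ (6 + 2 i)` has the coefficients `c_i`, `x ^ 4` : `u_i`, `x ^ 2` : `v_i`
  let b : ℕ → s.BB := fun j => match j with
    | 0 => h.eB ^ 12
    | 1 => 12 * h.eB ^ 11 + 792 * h.eB ^ 5 * P3 + 220 * h.eB ^ 3 * (P1 * P3) +
        12 * h.eB * ((P1 ^ 2 - P2) * P3)
    | 2 => 66 * h.eB ^ 10 + 495 * h.eB ^ 4 * P3 + 66 * h.eB ^ 2 * (P1 * P3) +
        (P1 ^ 2 - P2) * P3
    | 3 => 220 * h.eB ^ 9 - 792 * h.eB ^ 5 * P2 + 220 * h.eB ^ 3 * (P3 - P1 * P2) +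
        12 * h.eB * (P1 * P3 - (P1 ^ 2 - P2) * P2)
    | 4 => 495 * h.eB ^ 8 - 495 * h.eB ^ 4 * P2 + 66 * h.eB ^ 2 * (P3 - P1 * P2) +
        (P1 * P3 - (P1 ^ 2 - P2) * P2)
    | 5 => 792 * h.eB ^ 7 + 792 * h.eB ^ 5 * P1 + 220 * h.eB ^ 3 * (P1 ^ 2 - P2) +
        12 * h.eB * (P1 ^ 3 - 2 * P1 * P2 + P3)
    | _ => (924 : ℕ) • h.eB ^ 6 + (495 : ℕ) • (h.eB ^ 4 * P1) +
        (66 : ℕ) • (h.eB ^ 2 * (P1 ^ 2 - P2)) + (P1 ^ 3 - 2 * P1 * P2 + P3)
  have h1 : s.fam.qm ((s.piB h.eB + h.hB) ^ 12) =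
      s.fam.qm (∑ j ∈ Finset.range 7, s.piB (b j) * h.hB ^ j) := by
    simp only [Finset.sum_range_succ, Finset.range_zero, Finset.sum_empty, b, map_add, map_mul,
      map_pow, map_sub, map_zero, map_ofNat, nsmul_eq_mul, Nat.cast_ofNat, ← he, ← hx]
    unfold Gr at hG
    rw [← hx] at hG
    set p1 := s.fam.qm (s.piB P1)
    set p2 := s.fam.qm (s.piB P2)
    set p3 := s.fam.qm (s.piB P3)
    linear_combination (x ^ 5 + 12 * e * x ^ 4 + (66 * e ^ 2 + p1) * x ^ 3 +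
      (220 * e ^ 3 + 12 * e * p1) * x ^ 2 + (495 * e ^ 4 + 66 * e ^ 2 * p1 + p1 ^ 2 - p2) * x +
      792 * e ^ 5 + 220 * e ^ 3 * p1 + 12 * e * (p1 ^ 2 - p2)) * hG
  rw [PF_congr o h hQ h1, PF_poly o h hn b]
  have h2 : l ((b 6 : s.BB) : Form DB) = (l.comp s.BB.val.toLinearMap) ((924 : ℕ) • h.eB ^ 6 +
    (495 : ℕ) • (h.eB ^ 4 * P1) + (66 : ℕ) • (h.eB ^ 2 * (P1 ^ 2 - P2)) +
    (P1 ^ 3 - 2 * P1 * P2 + P3)) := rfl
  rw [h2, map_add, map_add, map_add, map_nsmul, map_nsmul, map_nsmul, nsmul_eq_mul,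
    nsmul_eq_mul, nsmul_eq_mul, Nat.cast_ofNat, Nat.cast_ofNat, Nat.cast_ofNat]
  rfl

end Main

/-- the push-forward of `λ (dλ) ^ N` -/
theorem Con.lam_eq_PF (h : s.Con θ η) (hQ : s.Q l) {μ : Form DS}
    (hμΦ : Form.pull s.Φ s.hΦ μ = pr μ + dt) (hμR : Form.pull s.R s.hR μ = pr μ + dt)
    (hμo : μ.sg = -μ) (N : ℕ) :
    l (s.I o (μ * μ.d ^ N)) = s.PF o l η ((s.piB h.eB + h.hB) ^ N) :=
  h.l_lam o hQ hμΦ hμR hμo N

end Seg

end Vale.Agent.P231.SEG
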