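import Vale.Agent.P231.XC.Bun

/-!
# P231, stage 3, SEG (B): orthonormal frames of a smooth projection over a neighbourhood of a
compact convex set
-/

set_option linter.unusedSectionVars false
set_option linter.unusedVariables false

open Matrix Set Filter Topology Module Metric InnerProductSpace
open scoped ContDiff

namespace Vale.Agent.P231.SEG.Frm

noncomputable section

/-! ### Gram–Schmidt for smooth families -/

section GS

variable {V W : Type*} [NormedAddCommGroup V] [NormedSpace ℝ V]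
  [NormedAddCommGroup W] [InnerProductSpace ℝ W]

theorem contDiffAt_gramSchmidt {N : ℕ} {a : Fin N → V → W} {x : V}
    (ha : ∀ i, ContDiffAt ℝ ∞ (a i) x) (hli : LinearIndependent ℝ (fun i => a i x)) (n : Fin N) :
    ContDiffAt ℝ ∞ (fun y => gramSchmidt ℝ (fun i => a i y) n) x := by
  induction n using WellFoundedLT.induction with
  | ind n ih =>
    have h1 : (fun y => gramSchmidt ℝ (fun i => a i y) n) = fun y => a n y -
        ∑ i ∈ Finset.Iio n, ((inner ℝ (gramSchmidt ℝ (fun i => a i y) i) (a n y) : ℝ) *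
          (inner ℝ (gramSchmidt ℝ (fun i => a i y) i)
            (gramSchmidt ℝ (fun i => a i y) i) : ℝ)⁻¹) • gramSchmidt ℝ (fun i => a i y) i := by
      funext y
      have h2 := gramSchmidt_def'' ℝ (fun i => a i y) n
      rw [eq_sub_iff_add_eq]
      refine Eq.trans ?_ h2.symm
      congr 1
      refine Finset.sum_congr rfl fun i _ => ?_
      rw [real_inner_self_eq_norm_sq, div_eq_mul_inv]
      rfl
    rw [h1]
    refine (ha n).sub (ContDiffAt.sum fun i hi => ?_)
    have h3 := ih i (Finset.mem_Iio.1 hi)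
    refine ContDiffAt.smul ?_ h3
    refine ContDiffAt.mul (h3.inner ℝ (ha n)) ?_
    refine ContDiffAt.inv (h3.inner ℝ h3) ?_
    rw [real_inner_self_eq_norm_sq]
    exact pow_ne_zero 2 (norm_ne_zero_iff.2 (gramSchmidt_ne_zero i hli))

theorem contDiffAt_gramSchmidtNormed {N : ℕ} {a : Fin N → V → W} {x : V}
    (ha : ∀ i, ContDiffAt ℝ ∞ (a i) x) (hli : LinearIndependent ℝ (fun i => a i x)) (n : Fin N) :
    ContDiffAt ℝ ∞ (fun y => gramSchmidtNormed ℝ (fun i => a i y) n) x := by
  have h1 := contDiffAt_gramSchmidt ha hli n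
  have h2 : (fun y => gramSchmidtNormed ℝ (fun i => a i y) n) = fun y =>
      ‖gramSchmidt ℝ (fun i => a i y) n‖⁻¹ • gramSchmidt ℝ (fun i => a i y) n := by
    funext y
    rw [gramSchmidtNormed]
    rfl
  rw [h2]
  refine ContDiffAt.smul ?_ h1
  refine ContDiffAt.inv (h1.norm ℝ (gramSchmidt_ne_zero n hli)) ?_
  exact norm_ne_zero_iff.2 (gramSchmidt_ne_zero n hli)

end GS

/-! ### transport along rays -/

section TR

variable {V W : Type*} [NormedAddCommGroup V] [NormedSpace ℝ V]
  [NormedAddCommGroup W] [NormedSpace ℝ W]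

/-- the chain of projections -/
def chain (Q : V → (W →L[ℝ] W)) (x0 : V) (N : ℕ) : ℕ → V → (W →L[ℝ] W)
  | 0, _ => Q x0
  | k + 1, x => (Q (x0 + (((k + 1 : ℕ) : ℝ) / N) • (x - x0))).comp (chain Q x0 N k x)

theorem contDiffAt_chain {Q : V → (W →L[ℝ] W)} (hQ : ∀ x, ContDiffAt ℝ ∞ Q x) (x0 : V) (N k : ℕ)
    (x : V) : ContDiffAt ℝ ∞ (chain Q x0 N k) x := by
  induction k with
  | zero => exact contDiffAt_const
  | succ k ih =>
    have h1 : ContDiffAt ℝ ∞ (fun x : V => Q (x0 + (((k + 1 : ℕ) : ℝ) / N) • (x - x0))) x :=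
      ContDiffAt.comp x (hQ (x0 + (((k + 1 : ℕ) : ℝ) / N) • (x - x0)))
        (contDiffAt_const.add (contDiffAt_const.smul (contDiffAt_id.sub contDiffAt_const)))
    exact h1.clm_comp ih

theorem chain_proj {Q : V → (W →L[ℝ] W)} (hp : ∀ x w, Q x (Q x w) = Q x w) (x0 : V) {N : ℕ}
    (k : ℕ) (x : V) (w : W) :
    Q (x0 + ((k : ℝ) / N) • (x - x0)) (chain Q x0 N k x w) = chain Q x0 N k x w := by
  cases k with
  | zero =>
    simp only [chain, Nat.cast_zero, zero_div, zero_smul, add_zero]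
    exact hp _ _
  | succ k =>
    simp only [chain, ContinuousLinearMap.comp_apply]
    exact hp _ _

/-- **transport along the rays of a neighbourhood of a compact convex set** -/
theorem exists_transport [FiniteDimensional ℝ V] {Q : V → (W →L[ℝ] W)}
    (hQ : ∀ x, ContDiffAt ℝ ∞ Q x) (hp : ∀ x w, Q x (Q x w) = Q x w) {A : Set V}
    (hA : IsCompact A) (hAc : Convex ℝ A) {x0 : V} (hx0 : x0 ∈ A) :
    ∃ U : Set V, IsOpen U ∧ A ⊆ U ∧ ∃ T : V → (W →L[ℝ] W), (∀ x, ContDiffAt ℝ ∞ T x) ∧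
      (∀ x w, Q x (T x w) = T x w) ∧ ∀ x ∈ U, ∀ w, Q x0 w = w → T x w = 0 → w = 0 := by
  have hK : IsCompact (cthickening 1 A) := hA.cthickening
  have hcont : ContinuousOn Q (cthickening 1 A) :=
    fun x _ => (hQ x).continuousAt.continuousWithinAt
  have hu := hK.uniformContinuousOn_of_continuous hcont
  rw [Metric.uniformContinuousOn_iff] at hu
  obtain ⟨δ, hδ, hδ'⟩ := hu 1 one_pos
  obtain ⟨R, hR⟩ := hA.isBounded.subset_closedBall x0
  have hR' : ∀ x ∈ thickening 1 A, ‖x - x0‖ ≤ |R| + 1 := by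
    intro x hx
    obtain ⟨a, ha, hxa⟩ := mem_thickening_iff.1 hx
    have h1 : dist a x0 ≤ R := hR ha
    rw [← dist_eq_norm]
    calc dist x x0 ≤ dist x a + dist a x0 := dist_triangle _ _ _
      _ ≤ 1 + |R| := add_le_add hxa.le (h1.trans (le_abs_self R))
      _ = |R| + 1 := add_comm _ _
  have hRp : 0 < |R| + 1 := by positivity
  obtain ⟨N, hN⟩ := exists_nat_gt ((|R| + 1) / δ)
  have hN0 : 0 < (N : ℝ) := lt_trans (by positivity) hN
  have hN0' : 0 < N := by exact_mod_cast hN0
  have h1N : (|R| + 1) / (N : ℝ) < δ := by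
    rw [div_lt_iff₀ hN0]
    rw [div_lt_iff₀ hδ] at hN
    linarith
  refine ⟨thickening 1 A, isOpen_thickening, self_subset_thickening one_pos A,
    chain Q x0 N N, contDiffAt_chain hQ x0 N N, ?_, ?_⟩
  · intro x w
    have h := chain_proj hp x0 (N := N) N x w
    rw [div_self hN0.ne', one_smul, add_sub_cancel] at h
    exact h
  have key : ∀ k ≤ N, ∀ x ∈ thickening 1 A, ∀ w, Q x0 w = w →
      chain Q x0 N k x w = 0 → w = 0 := by
    intro k
    induction k with
    | zero =>
      intro _ x _ w hw h0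
      simp only [chain] at h0
      rw [← hw, h0]
    | succ k ih =>
      intro hk x hx w hw h0
      refine ih (by omega) x hx w hw ?_
      by_contra hcon
      set z := chain Q x0 N k x w with hz
      have hz1 : Q (x0 + ((k : ℝ) / N) • (x - x0)) z = z := chain_proj hp x0 k x w
      have hz2 : Q (x0 + (((k + 1 : ℕ) : ℝ) / N) • (x - x0)) z = 0 := h0
      have hmem : ∀ j : ℕ, j ≤ N → x0 + ((j : ℝ) / N) • (x - x0) ∈ cthickening 1 A := by
        intro j hj
        obtain ⟨a, ha, hxa⟩ := mem_thickening_iff.1 hx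
        have h1 : (j : ℝ) / N ≤ 1 := by
          rw [div_le_one hN0]
          exact_mod_cast hj
        have h2 : 0 ≤ (j : ℝ) / N := by positivity
        have h3 : x0 + ((j : ℝ) / N) • (a - x0) ∈ A := by
          have := hAc hx0 ha (sub_nonneg.2 h1) h2 (by ring)
          convert this using 1
          rw [sub_smul, one_smul, smul_sub]
          abel
        refine mem_cthickening_of_dist_le _ _ _ _ h3 ?_
        rw [dist_add_left, dist_eq_norm, ← smul_sub, norm_smul, Real.norm_of_nonneg h2,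
          sub_sub_sub_cancel_right, ← dist_eq_norm]
        calc (j : ℝ) / N * dist x a ≤ 1 * 1 := mul_le_mul h1 hxa.le dist_nonneg zero_le_one
          _ = 1 := one_mul 1
      have hd : dist (x0 + ((k : ℝ) / N) • (x - x0))
          (x0 + (((k + 1 : ℕ) : ℝ) / N) • (x - x0)) < δ := by
        rw [dist_add_left, dist_eq_norm, ← sub_smul, norm_smul]
        have h3 : (k : ℝ) / N - ((k + 1 : ℕ) : ℝ) / N = -(1 / N) := by
          push_cast
          ring
        rw [h3, norm_neg, Real.norm_of_nonneg (by positivity)]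
        calc 1 / (N : ℝ) * ‖x - x0‖ ≤ 1 / (N : ℝ) * (|R| + 1) := by
              gcongr
              exact hR' x hx
          _ = (|R| + 1) / N := by ring
          _ < δ := h1N
      have h4 := hδ' _ (hmem k (by omega)) _ (hmem (k + 1) hk) hd
      rw [dist_eq_norm] at h4
      have h5 : ‖z‖ ≤ ‖Q (x0 + ((k : ℝ) / N) • (x - x0)) -
          Q (x0 + (((k + 1 : ℕ) : ℝ) / N) • (x - x0))‖ * ‖z‖ := by
        have h6 := (Q (x0 + ((k : ℝ) / N) • (x - x0)) -
          Q (x0 + (((k + 1 : ℕ) : ℝ) / N) • (x - x0))).le_opNorm z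
        rw [_root_.sub_apply, hz1, hz2, sub_zero] at h6
        exact h6
      have hzn : 0 < ‖z‖ := norm_pos_iff.2 hcon
      nlinarith
  exact fun x hx w hw h0 => key N le_rfl x hx w hw h0

end TR

end

end Vale.Agent.P231.SEG.Frm

/-! ### frames over a box -/

namespace Vale.Agent.P231.SEG

noncomputable section

open _root_.Vale.Agent.P231.SEG.Frm

open Vale.Agent.P231.Fm Vale.Agent.P231.W Vale.Agent.P231.ChW Vale.Agent.P231.X3

theorem exists_frame_box {B : Type*} {DB : Dif B} {ι : Type} [Fintype ι] [DecidableEq ι]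
    {P : B → Matrix ι ι ℝ} {l : ℕ} (hP : XC.Pj DB P l) {V : Type} [NormedAddCommGroup V]
    [NormedSpace ℝ V] [FiniteDimensional ℝ V] {G : V → B} (hG : ∀ x, DB.At G x) {A : Set V}
    (hA : IsCompact A) (hAc : Convex ℝ A) (hne : A.Nonempty) :
    ∃ U : Set V, IsOpen U ∧ A ⊆ U ∧ ∃ f : V → XC.Fr P l,
      (∀ x ∈ U, (XC.dFr DB P l).At f x) ∧ ∀ x ∈ U, XC.Fr.b ∘ f =ᶠ[𝓝 x] G := by
  classical
  obtain ⟨x0, hx0⟩ := hne
  let Q : V → (EuclideanSpace ℝ ι →L[ℝ] EuclideanSpace ℝ ι) := fun x => XC.opP P (G x)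
  have hQ : ∀ x, ContDiffAt ℝ ∞ Q x := fun x => (XC.sm_opP hP.sm (hG x)).self_of_nhds
  have hop : ∀ b w, WithLp.ofLp (XC.opP P b w) = P b *ᵥ WithLp.ofLp w := fun b w => by
    ext j
    exact XC.opP_apply _ _ _
  have hp : ∀ x w, Q x (Q x w) = Q x w := fun x w => by
    ext i
    change XC.opP P (G x) (XC.opP P (G x) w) i = XC.opP P (G x) w i
    rw [XC.opP_apply, XC.opP_apply, hop, Matrix.mulVec_mulVec, hP.idem]
  obtain ⟨U, hU, hAU, T, hT, hQT, hinj⟩ := exists_transport hQ hp hA hAc hx0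
  obtain ⟨g, hg, hgx⟩ := XC.exists_onb hP (G x0)
  let a : Fin l → V → EuclideanSpace ℝ ι := fun i y => T y (g i)
  have ha : ∀ i x, ContDiffAt ℝ ∞ (a i) x := fun i x => (hT x).clm_apply contDiffAt_const
  -- the fixed space
  let S : V → Submodule ℝ (EuclideanSpace ℝ ι) := fun x =>
    LinearMap.ker ((Q x : EuclideanSpace ℝ ι →ₗ[ℝ] EuclideanSpace ℝ ι) - LinearMap.id)
  have hS : ∀ x w, w ∈ S x ↔ Q x w = w := fun x w => by
    rw [LinearMap.mem_ker, LinearMap.sub_apply, sub_eq_zero]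
    rfl
  have hli : ∀ x ∈ U, LinearIndependent ℝ (fun i => a i x) := by
    intro x hx
    refine hg.linearIndependent.map (f := (T x : EuclideanSpace ℝ ι →ₗ[ℝ] EuclideanSpace ℝ ι)) ?_
    rw [Submodule.disjoint_def]
    intro w hw hw0
    have h1 : Submodule.span ℝ (Set.range g) ≤ S x0 := by
      rw [Submodule.span_le]
      rintro _ ⟨i, rfl⟩
      exact (hS x0 _).2 (hgx i)
    exact hinj x hx w ((hS x0 w).1 (h1 hw)) hw0
  let e : V → Fin l → EuclideanSpace ℝ ι := fun x i => gramSchmidtNormed ℝ (fun j => a j x) i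
  have hesm : ∀ x ∈ U, ∀ i, ContDiffAt ℝ ∞ (fun y => e y i) x := fun x hx i =>
    contDiffAt_gramSchmidtNormed (fun i => ha i x) (hli x hx) i
  have heo : ∀ x ∈ U, Orthonormal ℝ (e x) := fun x hx => gramSchmidtNormed_orthonormal (hli x hx)
  have hefix : ∀ x i, Q x (e x i) = e x i := by
    intro x i
    rw [← hS]
    have h3 := gramSchmidt_mem_span ℝ (fun j => a j x) (le_refl i)
    have h4 : Submodule.span ℝ ((fun j => a j x) '' Set.Iic i) ≤ S x := by
      rw [Submodule.span_le]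
      rintro _ ⟨j, -, rfl⟩
      exact (hS x _).2 (hQT x _)
    exact Submodule.smul_mem _ _ (h4 h3)
  have hfr : ∀ x ∈ U, XC.IsFr (P (G x)) (fun i => WithLp.ofLp (e x i)) := by
    intro x hx
    refine ⟨fun i => ?_, fun i j => ?_⟩
    · rw [← hop]
      exact congrArg WithLp.ofLp (hefix x i)
    · have h5 := orthonormal_iff_ite.1 (heo x hx) i j
      rw [PiLp.inner_apply] at h5
      rw [← h5, dotProduct]
      refine Finset.sum_congr rfl fun i _ => ?_
      simp [mul_comm]
  let f : V → XC.Fr P l := fun y =>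
    if hy : XC.IsFr (P (G y)) (fun i => WithLp.ofLp (e y i)) then
      XC.Fr.mk (G y) (fun i => WithLp.ofLp (e y i)) hy else
      XC.Fr.mk (G x0) (fun i => WithLp.ofLp (e x0 i)) (hfr x0 (hAU hx0))
  have hf : ∀ y (hy : XC.IsFr (P (G y)) (fun i => WithLp.ofLp (e y i))),
      f y = XC.Fr.mk (G y) (fun i => WithLp.ofLp (e y i)) hy := fun y hy => dif_pos hy
  refine ⟨U, hU, hAU, f, fun x hx => ?_, fun x hx => ?_⟩
  · have h6 : (DB.prod (Dif.lin (Fin l → ι → ℝ))).At
        (fun y => (G y, fun i => WithLp.ofLp (e y i))) x := by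
      refine ⟨hG x, ?_⟩
      filter_upwards [hU.mem_nhds hx] with y hy
      refine contDiffAt_pi.2 fun i => contDiffAt_pi.2 fun j => ?_
      exact (contDiffAt_euclidean.1 (hesm y hy i)) j
    refine (DB.prod (Dif.lin (Fin l → ι → ℝ))).congr h6 ?_
    filter_upwards [hU.mem_nhds hx] with y hy
    exact (congrArg Subtype.val (hf y (hfr y hy))).symm
  · filter_upwards [hU.mem_nhds hx] with y hy
    exact congrArg XC.Fr.b (hf y (hfr y hy))

end

end Vale.Agent.P231.SEG
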