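import Vale.Agent.P231.SEG.Int
import Vale.Agent.P231.SEG.Frm
import Vale.Agent.P231.XC.Seg
import Vale.Agent.P231.XC.Pair
import Vale.Agent.P231.H584.BoxT

/-!
# P231, stage 3, block SEG: the numbers of a good box are integers
-/

set_option linter.unusedSectionVars false
set_option linter.unusedVariables false

open MeasureTheory Set Module Filter Topology
open scoped ContDiff

namespace Vale.Agent.P231.SEG

open Vale.Agent.P231.Fm Vale.Agent.P231.W Vale.Agent.P231.H584 Vale.Agent.P231.Co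
  Vale.Agent.P231.BX
open Vale.Agent.P231.Fm (Sm Dif Form Lam)

noncomputable section

/-! ### the flow of period one -/

section Time

variable {X : Type*} {D : Dif X} {Φ : X × ℝ → X}

/-- the flow of period one -/
def ph1 (T : ℝ) (Φ : X × ℝ → X) (p : X × ℝ) : X := Φ (p.1, T * p.2)

theorem map_ph1 (T : ℝ) (hΦ : (D.prod (Dif.lin ℝ)).Map D Φ) :
    (D.prod (Dif.lin ℝ)).Map D (ph1 T Φ) := fun hu => hΦ (map_scale T hu)

theorem pull_ph1 (T : ℝ) (hΦ : (D.prod (Dif.lin ℝ)).Map D Φ) (a : Form D) :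
    Form.pull (ph1 T Φ) (map_ph1 T hΦ) a =
      Form.pull (fun p : X × ℝ => (p.1, T * p.2)) (map_scale T) (Form.pull Φ hΦ a) :=
  (pull_pull (map_scale T) hΦ (map_ph1 T hΦ) (fun p => rfl) a).symm

theorem scale_dt (T : ℝ) : Form.pull (fun p : X × ℝ => (p.1, T * p.2)) (map_scale (D := D) T)
    (dt (D := D)) = T • dt := by
  have k2 : (D.prod (Dif.lin ℝ)).Map (Dif.lin ℝ) (Prod.snd : X × ℝ → ℝ) := Dif.map_snd
  have h1 : Form.pull (fun p : X × ℝ => (p.1, T * p.2)) (map_scale (D := D) T)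
      (Form.fn _ k2) = T • Form.fn _ k2 := by
    refine Form.ext_val fun E _ _ _ u x hu => ?_
    rw [Form.pull_val _ _ hu, Form.fn_val _ k2 (map_scale T hu), Form.smul_val,
      Form.fn_val _ k2 hu]
    change algebraMap ℝ (Lam E) (T * (u x).2) = _
    rw [map_mul, Algebra.smul_def]
  refine (Form.pull_d _ (map_scale (D := D) T) (Form.fn _ k2)).trans ?_
  rw [h1, Form.d_smul]
  rfl

theorem basic_of_ph1 {T : ℝ} (hT : T ≠ 0) (hΦ : (D.prod (Dif.lin ℝ)).Map D Φ) {a : Form D}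
    (ha : Basic (ph1 T Φ) (map_ph1 T hΦ) a) : Basic Φ hΦ a := by
  have h1 := congrArg (Form.pull (fun p : X × ℝ => (p.1, T⁻¹ * p.2)) (map_scale (D := D) T⁻¹)) ha
  rw [basic_def]
  refine Eq.trans (Eq.symm ?_) (h1.trans (scale_pr T⁻¹ a))
  refine pull_pull (map_scale T⁻¹) (map_ph1 T hΦ) hΦ (fun p => ?_) a
  change Φ (p.1, T * (T⁻¹ * p.2)) = Φ p
  rw [mul_inv_cancel_left₀ hT]

theorem basic_ph1 (T : ℝ) (hΦ : (D.prod (Dif.lin ℝ)).Map D Φ) {a : Form D}
    (ha : Basic Φ hΦ a) : Basic (ph1 T Φ) (map_ph1 T hΦ) a := by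
  rw [basic_def, pull_ph1 T hΦ, ha, scale_pr]

theorem contact_ph1 {T : ℝ} (hT : T ≠ 0) (hΦ : (D.prod (Dif.lin ℝ)).Map D Φ) {α : Form D}
    (hα : Form.pull Φ hΦ α = pr α + dt) :
    Form.pull (ph1 T Φ) (map_ph1 T hΦ) (T⁻¹ • α) = pr (T⁻¹ • α) + dt := by
  have h1 : Form.pull (fun p : X × ℝ => (p.1, T * p.2)) (map_scale (D := D) T) (pr α + dt) =
      pr α + T • dt := by
    rw [Co.pull_add, scale_pr, scale_dt]
  rw [Co.pull_smul, pull_ph1 T hΦ, hα, h1, smul_add, smul_smul, inv_mul_cancel₀ hT, one_smul, pr_smul]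

end Time

/-! ### the sphere bundle over an invariant subset -/

section Main

variable {X : Type*} {D : Dif X} {T : ℝ} {Φ : X × ℝ → X} {α : Form D} {ι : Type} [Fintype ι]
  [DecidableEq ι] {P : X → Matrix ι ι ℝ}

/-- the field of projections over a subset -/
theorem pjO (hP : XC.Pj D P 7) (O : Set X) : XC.Pj (D.on O) P 7 := hP.comp Dif.map_on

theorem cF_pjO (hP : XC.Pj D P 7) (O : Set X) (k : ℕ) :
    XC.cF (pjO hP O) k = Form.res O (XC.cF hP k) := XC.cF_comp hP Dif.map_on k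

theorem inv1 (T : ℝ) (hinv : ∀ x t, P (Φ (x, t)) = P x) (x : X) (t : ℝ) :
    P (ph1 T Φ (x, t)) = P x := hinv x _

variable (h : IsFlow D T Φ) (hP : XC.Pj D P 7) (hinv : ∀ x t, P (Φ (x, t)) = P x) {O : Set X}
  (hi : ∀ x ∈ O, ∀ t, Φ (x, t) ∈ O)

include h hi in
theorem mapO : ((D.on O).prod (Dif.lin ℝ)).Map (D.on O) (ph1 T Φ) :=
  map_ph1 T (isFlow_on h hi).map

/-- the sphere bundle over an invariant subset, with the flow of period one -/
abbrev sgO : Seg (D.on O) (XC.dX (D.on O) P) (XC.dFr (D.on O) P 7) (XC.Fl 7) XC.XS.b XC.Fr.b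
    XC.ev := XC.seg (pjO hP O) (inv1 T hinv) (mapO h hi)

/-- the contact form of period one -/
def thO (α : Form D) (T : ℝ) (O : Set X) : Form (D.on O) := T⁻¹ • Form.res O α

theorem thO_d : (thO α T O).d = Form.res O (T⁻¹ • α.d) := by
  rw [thO, Form.d_smul, Form.res_d, Form.res_smul]

section Contact

variable (hT : T ≠ 0) (hα : Form.pull Φ h.map α = pr α + dt) (hαo : α.sg = -α)

include hT hα in
theorem thO_contact : Form.pull (ph1 T Φ) (mapO h hi) (thO α T O) = pr (thO α T O) + dt :=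
  contact_ph1 hT (isFlow_on h hi).map (contact_res h hi hα)

include hαo in
theorem thO_sg : (thO α T O).sg = -thO α T O := by
  rw [thO, Form.sg_smul, Form.res_sg, hαo, Form.res_neg, smul_neg]

include hT hα hαo in
/-- the contact data -/
theorem conO : (sgO h hP hinv hi).Con (thO α T O) (XC.et (D.on O) P) :=
  XC.con (pjO hP O) (inv1 T hinv) (mapO h hi) (thO_contact h hi hT hα) (thO_sg hαo)

theorem grO : Seg.Gr (conO h hP hinv hi hT hα hαo)
    (XC.PP1 (pjO hP O) (inv1 T hinv) (mapO h hi)) (XC.PP2 (pjO hP O) (inv1 T hinv) (mapO h hi))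
    (XC.PP3 (pjO hP O) (inv1 T hinv) (mapO h hi)) :=
  XC.gr (pjO hP O) (inv1 T hinv) (mapO h hi) (thO_contact h hi hT hα) (thO_sg hαo)

end Contact

section Box

variable {h} {B : Bt D} (hT : T ≠ 0) (hB : B.Good h) (hO : Co.IsO D O) (hG : ∀ x, B.G x ∈ O)
include hT hB hO hG

theorem QO : (sgO h hP hinv hi).Q (B.LO hG) where
  out w hw := (hB O hO hG hi).bas w (basic_of_ph1 hT (isFlow_on h hi).map hw)

theorem exists_bx (hne : B.A.Nonempty) : ∃ (U : Set B.E) (f : B.E → XC.Fr P 7),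
    LM.Bx (sgO h hP hinv hi) B.b B.A U B.G f := by
  obtain ⟨U, hU, hAU, f, hf, hfG⟩ := exists_frame_box (pjO hP O) (B.plot_on hG) B.cpt B.cvx hne
  exact ⟨U, f, B.cpt, B.null_frontier, hU, hAU, hf, hfG,
    fun a ha => (QO hP hinv hi hT hB hO hG).out a ha⟩

end Box

/-! ### the numbers -/

theorem res_pow (w : Form D) (n : ℕ) : Form.res O (w ^ n) = Form.res O w ^ n :=
  map_pow (Form.pullA id (Dif.map_on (D := D) (O := O))) w n

theorem L_empty {B : Bt D} (he : B.A = ∅) (w : Form D) : B.L w = 0 := by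
  rw [Bt.L_int, he, setIntegral_empty]

section Num

variable {h} {B : Bt D} (hT : T ≠ 0) (hα : Form.pull Φ h.map α = pr α + dt) (hαo : α.sg = -α)
  (hB : B.Good h) (hO : Co.IsO D O) (hG : ∀ x, B.G x ∈ O)

theorem exists_PF {M : ℕ} (L : LM (sgO h hP hinv hi) (M + 1)) (hN : 2 * 7 + B.N = 2 * (M + 1))
    (hne : B.A.Nonempty) (hc : (sgO h hP hinv hi).Con (thO α T O) (XC.et (D.on O) P))
    (hB : B.Good h) (hO : Co.IsO D O) (hT : T ≠ 0) :
    ∃ k : ℤ, (sgO h hP hinv hi).PF (XC.ob 7) (B.LO hG) (XC.et (D.on O) P)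
      (((sgO h hP hinv hi).piB hc.eB + hc.hB) ^ M) = k := by
  obtain ⟨U, f, hBx⟩ := exists_bx hP hinv hi hT hB hO hG hne
  obtain ⟨k, hk⟩ := L.exists_int (XC.ob 7) hBx hN (l := B.LO hG) (fun w => rfl)
  rw [hc.lam_eq_PF (XC.ob 7) (QO hP hinv hi hT hB hO hG) L.mu_Φ L.mu_R L.mu_sg] at hk
  exact ⟨k, hk⟩

include hT hα hαo hB hO hG

/-- **the eighth power** -/
theorem num_two (hN : B.N = 4) (L : LM (sgO h hP hinv hi) 9) :
    ∃ n : ℤ, 28 * B.L ((T⁻¹ • α.d) ^ 2) + B.L (-XC.cF hP 2) = n := by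
  rcases B.A.eq_empty_or_nonempty with he | hne
  · exact ⟨0, by rw [L_empty he, L_empty he]; simp⟩
  obtain ⟨k, hk⟩ := exists_PF (α := α) hP hinv hi hG L (by rw [hN]) hne
    (conO h hP hinv hi hT hα hαo) hB hO hT
  refine ⟨k, ?_⟩
  rw [Seg.PF_eight (XC.ob 7) _ (QO hP hinv hi hT hB hO hG) (XC.nrm _ _ _)
    (grO h hP hinv hi hT hα hαo)] at hk
  rw [← hk, ← B.LO_res hG, ← B.LO_res hG, res_pow, ← thO_d, Form.res_neg, ← cF_pjO]
  rfl

/-- **the tenth power** -/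
theorem num_four (hN : B.N = 8) (L : LM (sgO h hP hinv hi) 11) :
    ∃ n : ℤ, 210 * B.L ((T⁻¹ • α.d) ^ 4) + 45 * B.L ((T⁻¹ • α.d) ^ 2 * (-XC.cF hP 2)) +
      B.L ((-XC.cF hP 2) ^ 2 - XC.cF hP 4) = n := by
  rcases B.A.eq_empty_or_nonempty with he | hne
  · exact ⟨0, by rw [L_empty he, L_empty he, L_empty he]; simp⟩
  obtain ⟨k, hk⟩ := exists_PF (α := α) hP hinv hi hG L (by rw [hN]) hne
    (conO h hP hinv hi hT hα hαo) hB hO hT
  refine ⟨k, ?_⟩
  rw [Seg.PF_ten (XC.ob 7) _ (QO hP hinv hi hT hB hO hG) (XC.nrm _ _ _)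
    (grO h hP hinv hi hT hα hαo)] at hk
  rw [← hk, ← B.LO_res hG, ← B.LO_res hG, ← B.LO_res hG, Form.res_mul, Form.res_sub, res_pow,
    res_pow, res_pow, ← thO_d, Form.res_neg, ← cF_pjO, ← cF_pjO]
  rfl

/-- **the twelfth power** -/
theorem num_six (hN : B.N = 12) (L : LM (sgO h hP hinv hi) 13) :
    ∃ n : ℤ, 924 * B.L ((T⁻¹ • α.d) ^ 6) + 495 * B.L ((T⁻¹ • α.d) ^ 4 * (-XC.cF hP 2)) +
      66 * B.L ((T⁻¹ • α.d) ^ 2 * ((-XC.cF hP 2) ^ 2 - XC.cF hP 4)) +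
      B.L ((-XC.cF hP 2) ^ 3 - 2 * (-XC.cF hP 2) * XC.cF hP 4 + (-XC.cF hP 6)) = n := by
  rcases B.A.eq_empty_or_nonempty with he | hne
  · exact ⟨0, by rw [L_empty he, L_empty he, L_empty he, L_empty he]; simp⟩
  obtain ⟨k, hk⟩ := exists_PF (α := α) hP hinv hi hG L (by rw [hN]) hne
    (conO h hP hinv hi hT hα hαo) hB hO hT
  refine ⟨k, ?_⟩
  rw [Seg.PF_twelve (XC.ob 7) _ (QO hP hinv hi hT hB hO hG) (XC.nrm _ _ _)
    (grO h hP hinv hi hT hα hαo)] at hk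
  have h2 : Form.res O (2 : Form D) = 2 := by
    have := map_ofNat (Form.pullA id (Dif.map_on (D := D) (O := O))) 2
    exact this
  rw [← hk, ← B.LO_res hG, ← B.LO_res hG, ← B.LO_res hG, ← B.LO_res hG]
  simp only [Form.res_mul, Form.res_sub, Form.res_add, res_pow, Form.res_neg, h2, ← thO_d,
    ← cF_pjO]
  rfl

end Num

end Main

end

end Vale.Agent.P231.SEG
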