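import Vale.Agent.P231.EN.Std
import Vale.Agent.P231.S2I.OfOn
import Vale.Agent.P231.H584.Flow
import Vale.Agent.P231.WA.Deg
import Vale.Agent.P231.X3.Cplx

/-!
# P231, stage 3, block SEG (5): the connection form of the Hopf fibration on `ℂⁿ ∖ 0`
-/

set_option linter.unusedSectionVars false
set_option linter.unusedVariables false

open MeasureTheory Set Module Filter Topology
open scoped ContDiff

namespace Vale.Agent.P231.SEG

open Vale.Agent.P231.Fm Vale.Agent.P231.W Vale.Agent.P231.H584 Vale.Agent.P231.EN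
  Vale.Agent.P231.EN.Std Vale.Agent.P231.S2I
open Vale.Agent.P231.Fm (Sm Dif Form Lam)

noncomputable section

/-- the space `ℂⁿ` -/
abbrev Cn (n : ℕ) : Type := Fin n → ℂ

/-- the diffeology of `ℂⁿ ∖ 0` -/
abbrev DZ (n : ℕ) : Dif (Cn n) := (Dif.lin (Cn n)).on {z | z ≠ 0}

theorem isOpen_ne0 {n : ℕ} : IsOpen {z : Cn n | z ≠ 0} := isOpen_compl_singleton

variable {n : ℕ}

/-- the covector `Im ⟨z, ·⟩ / |z|²` -/
def lamC (z : Cn n) : Cn n →L[ℝ] ℝ :=
  (nsq (xc n) (yc n) z)⁻¹ • ∑ j, (xc n j z • yc n j - yc n j z • xc n j)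

theorem beta0_eq (z : Cn n) : beta0 (xc n) (yc n) z = Fm.dx (lamC z) := by
  rw [beta0, lam0, lamC, map_smul, map_sum]
  congr 1
  refine Finset.sum_congr rfl fun j _ => ?_
  rw [map_sub, map_smul, map_smul]

theorem lamC_apply (z v : Cn n) : lamC z v = (nsq (xc n) (yc n) z)⁻¹ *
    ∑ j, ((starRingEnd ℂ) (z j) * v j).im := by
  rw [lamC, smul_apply, sum_apply, smul_eq_mul]
  congr 1
  refine Finset.sum_congr rfl fun j _ => ?_
  rw [sub_apply, smul_apply, smul_apply, smul_eq_mul, smul_eq_mul]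
  change (z j).re * (v j).im - (z j).im * (v j).re = _
  rw [Complex.mul_im, Complex.conj_re, Complex.conj_im]
  ring

theorem nsq_eq (z : Cn n) : nsq (xc n) (yc n) z = ∑ j, Complex.normSq (z j) := by
  rw [nsq]
  refine Finset.sum_congr rfl fun j _ => ?_
  change (z j).re ^ 2 + (z j).im ^ 2 = _
  rw [Complex.normSq_apply]
  ring

theorem nsq_smul (c : ℂ) (z : Cn n) : nsq (xc n) (yc n) (c • z) =
    Complex.normSq c * nsq (xc n) (yc n) z := by
  rw [nsq_eq, nsq_eq, Finset.mul_sum]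
  refine Finset.sum_congr rfl fun j _ => ?_
  rw [Pi.smul_apply, smul_eq_mul, map_mul]

/-- the covector under multiplication by functions -/
theorem lamC_mul {c : ℂ} (hc : c ≠ 0) {z : Cn n} (hz : z ≠ 0) (γ : ℂ) (w : Cn n) :
    lamC (c • z) (c • w + γ • z) =
      lamC z w + ((starRingEnd ℂ) c * γ).im / Complex.normSq c := by
  have hc' : Complex.normSq c ≠ 0 := fun h => hc (Complex.normSq_eq_zero.1 h)
  have hn : nsq (xc n) (yc n) z ≠ 0 := (nsq_pos n hz).ne'
  rw [lamC_apply, lamC_apply, nsq_smul]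
  have h1 : ∑ j, ((starRingEnd ℂ) ((c • z) j) * (c • w + γ • z) j).im =
      Complex.normSq c * ∑ j, ((starRingEnd ℂ) (z j) * w j).im +
        nsq (xc n) (yc n) z * ((starRingEnd ℂ) c * γ).im := by
    rw [nsq_eq, Finset.mul_sum, Finset.sum_mul, ← Finset.sum_add_distrib]
    refine Finset.sum_congr rfl fun j _ => ?_
    simp only [Pi.smul_apply, Pi.add_apply, smul_eq_mul, Complex.mul_im, Complex.mul_re,
      Complex.conj_re, Complex.conj_im, Complex.add_re, Complex.add_im, Complex.normSq_apply]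
    ring
  rw [h1]
  field_simp

theorem contDiffOn_beta0 : ContDiffOn ℝ ∞ (beta0 (xc n) (yc n)) {z | z ≠ 0} := fun z hz => by
  unfold beta0
  exact (((contDiff_nsq _ _).contDiffAt.inv (nsq_pos n hz).ne').smul
    (contDiff_lam0 _ _).contDiffAt).contDiffWithinAt

/-- the form `β = Im ⟨z, dz⟩ / |z|²` on `ℂⁿ ∖ 0` -/
def bet (n : ℕ) : Form (DZ n) := ofOn isOpen_ne0 (beta0 (xc n) (yc n)) contDiffOn_beta0

theorem bet_val {E : Type} [NormedAddCommGroup E] [NormedSpace ℝ E] [FiniteDimensional ℝ E]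
    {u : E → Cn n} {x : E} (h : (DZ n).At u x) :
    (bet n).val u x = Fm.dx ((lamC (u x)).comp (fderiv ℝ u x)) := by
  rw [bet, ofOn_val _ _ _ h, pb, beta0_eq, pull_dx]

theorem bet_d_val {E : Type} [NormedAddCommGroup E] [NormedSpace ℝ E] [FiniteDimensional ℝ E]
    {u : E → Cn n} {x : E} (h : (DZ n).At u x) :
    (bet n).d.val u x = pb u (extd (beta0 (xc n) (yc n))) x := by
  rw [bet, d_ofOn, ofOn_val _ _ _ h]

theorem bet_sg : (bet n).sg = -bet n := Form.ext_val fun E _ _ _ u x h => by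
  rw [Form.sg_val, Form.neg_val, bet_val h, inv_dx]

theorem dt_val' {Y : Type*} {D : Dif Y} {E : Type} [NormedAddCommGroup E] [NormedSpace ℝ E]
    [FiniteDimensional ℝ E] {u : E → Y × ℝ} {x : E} (h : (D.prod (Dif.lin ℝ)).At u x) :
    (dt (D := D)).val u x = Fm.dx (fderiv ℝ (fun y => (u y).2) x) := by
  rw [dt, Form.d_val _ h]
  have h1 : (fun y => (Form.fn (Prod.snd : Y × ℝ → ℝ) (Dif.map_snd (D := D)
      (D' := Dif.lin ℝ))).val u y) =ᶠ[𝓝 x] Fm.fn (fun y => (u y).2) := by
    filter_upwards [(D.prod (Dif.lin ℝ)).open' h] with y hy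
    rw [Form.fn_val _ _ hy]
    rfl
  have h2 : DifferentiableAt ℝ (fun y => (u y).2) x := Sm.differentiableAt (g := fun y => (u y).2) h.2
  rw [extd_congr h1, extd_fn h2]

/-- multiplication by a function with values in `ℂ ∖ 0` -/
theorem bet_mul {E : Type} [NormedAddCommGroup E] [NormedSpace ℝ E] [FiniteDimensional ℝ E]
    {u : E → Cn n} {c : E → ℂ} {x : E} (h : (DZ n).At u x) (hc : Sm c x) (hc0 : c x ≠ 0) :
    (bet n).val (fun y => c y • u y) x = (bet n).val u x +
      Fm.dx ((Complex.normSq (c x))⁻¹ •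
        (Complex.imCLM.comp (((ContinuousLinearMap.mul ℝ ℂ) ((starRingEnd ℂ) (c x))).comp
          (fderiv ℝ c x)))) := by
  have hu : DifferentiableAt ℝ u x := h.1.differentiableAt
  have hcd : DifferentiableAt ℝ c x := hc.differentiableAt
  have hux : u x ≠ 0 := h.2.self_of_nhds
  have h1 : (DZ n).At (fun y => c y • u y) x := by
    refine ⟨?_, ?_⟩
    · have h2 : Sm u x := h.1
      filter_upwards [h2, hc] with y hy1 hy2 using hy2.smul hy1
    · filter_upwards [h.2, hc.continuousAt.eventually_ne hc0] with y hy1 hy2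
      exact smul_ne_zero hy2 hy1
  rw [bet_val h1, bet_val h, ← map_add]
  congr 1
  ext v
  have h3 : HasFDerivAt (fun y => c y • u y) (c x • fderiv ℝ u x +
      (fderiv ℝ c x).smulRight (u x)) x := hcd.hasFDerivAt.smul hu.hasFDerivAt
  rw [h3.fderiv]
  change lamC (c x • u x) (c x • fderiv ℝ u x v + fderiv ℝ c x v • u x) =
    lamC (u x) (fderiv ℝ u x v) + (Complex.normSq (c x))⁻¹ *
      ((starRingEnd ℂ) (c x) * fderiv ℝ c x v).im
  rw [lamC_mul hc0 hux, div_eq_inv_mul]

/-- the Hopf flow, of period one -/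
def hp (p : Cn n × ℝ) : Cn n := X3.Cor.ph (2 * Real.pi * p.2) • p.1

theorem normSq_ph (s : ℝ) : Complex.normSq (X3.Cor.ph s) = 1 := by
  simp only [X3.Cor.ph, Complex.normSq_apply, Complex.add_re, Complex.add_im, Complex.mul_re,
    Complex.mul_im, Complex.ofReal_re, Complex.ofReal_im, Complex.I_re, Complex.I_im]
  have := Real.sin_sq_add_cos_sq s
  nlinarith

theorem ph_ne_zero (s : ℝ) : X3.Cor.ph s ≠ 0 := fun h => by
  have := normSq_ph s
  rw [h, map_zero] at this
  exact zero_ne_one this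

theorem hasDerivAt_ph (s : ℝ) : HasDerivAt X3.Cor.ph (Complex.I * X3.Cor.ph s) s := by
  have h1 : HasDerivAt (fun s : ℝ => ((Real.cos s : ℝ) : ℂ)) ((-Real.sin s : ℝ) : ℂ) s :=
    (Real.hasDerivAt_cos s).ofReal_comp
  have h2 : HasDerivAt (fun s : ℝ => ((Real.sin s : ℝ) : ℂ)) ((Real.cos s : ℝ) : ℂ) s :=
    (Real.hasDerivAt_sin s).ofReal_comp
  have h3 := h1.add (h2.mul_const Complex.I)
  refine h3.congr_deriv ?_
  simp only [X3.Cor.ph]
  push_cast
  linear_combination -(Complex.sin s) * Complex.I_sq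

theorem contDiff_ph' : ContDiff ℝ ∞ X3.Cor.ph := by
  unfold X3.Cor.ph
  exact ((Complex.ofRealCLM.contDiff.comp Real.contDiff_cos).add
    ((Complex.ofRealCLM.contDiff.comp Real.contDiff_sin).mul contDiff_const))

theorem map_hp : ((DZ n).prod (Dif.lin ℝ)).Map (DZ n) hp := fun {E} _ _ _ {u x} h => by
  have h1 : Sm (fun y => (u y).2) x := h.2
  have h2 : Sm (fun y => (u y).1) x := h.1.1
  refine ⟨?_, ?_⟩
  · filter_upwards [h1, h2] with y hy1 hy2
    exact (contDiff_ph'.contDiffAt.comp y (contDiffAt_const.mul hy1)).smul hy2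
  · filter_upwards [h.1.2] with y hy
    exact smul_ne_zero (ph_ne_zero _) hy

/-- **`β` is a connection form of the Hopf flow** -/
theorem pull_hp_bet : Form.pull hp map_hp (bet n) = pr (bet n) + (2 * Real.pi) • dt := by
  refine Form.ext_val fun E _ _ _ u x h => ?_
  have h1 : Sm (fun y => (u y).2) x := h.2
  have hc : Sm (fun y => X3.Cor.ph (2 * Real.pi * (u y).2)) x := by
    filter_upwards [h1] with y hy1
    exact contDiff_ph'.contDiffAt.comp y (contDiffAt_const.mul hy1)
  have e1 : hp ∘ u = fun y => X3.Cor.ph (2 * Real.pi * (u y).2) • (u y).1 := rfl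
  rw [Form.pull_val _ _ h, e1, bet_mul (u := fun y => (u y).1) h.1 hc (ph_ne_zero _),
    Form.add_val, pr, Form.pull_val Dif.map_fst _ h, Form.smul_val, dt_val' h]
  congr 1
  rw [← map_smul]
  congr 1
  have h2 : HasFDerivAt (fun y => (u y).2) (fderiv ℝ (fun y => (u y).2) x) x :=
    (Sm.differentiableAt (g := fun y => (u y).2) h1).hasFDerivAt
  have h3 : HasFDerivAt (fun y => X3.Cor.ph (2 * Real.pi * (u y).2))
      (((2 * Real.pi) • fderiv ℝ (fun y => (u y).2) x).smulRight
        (Complex.I * X3.Cor.ph (2 * Real.pi * (u x).2))) x := by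
    have h4 := (hasDerivAt_ph (2 * Real.pi * (u x).2)).hasFDerivAt.comp x
      (h2.const_mul (2 * Real.pi))
    refine h4.congr_fderiv ?_
    ext v
    simp
    ring
  rw [h3.fderiv, normSq_ph, inv_one, one_smul]
  ext v
  change ((starRingEnd ℂ) (X3.Cor.ph (2 * Real.pi * (u x).2)) *
    ((2 * Real.pi * fderiv ℝ (fun y => (u y).2) x v : ℝ) •
      (Complex.I * X3.Cor.ph (2 * Real.pi * (u x).2)))).im =
    2 * Real.pi * fderiv ℝ (fun y => (u y).2) x v
  have h5 : (starRingEnd ℂ) (X3.Cor.ph (2 * Real.pi * (u x).2)) *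
      X3.Cor.ph (2 * Real.pi * (u x).2) = 1 := by
    rw [mul_comm, Complex.mul_conj, normSq_ph, Complex.ofReal_one]
  rw [Complex.real_smul, show (starRingEnd ℂ) (X3.Cor.ph (2 * Real.pi * (u x).2)) *
    (((2 * Real.pi * fderiv ℝ (fun y => (u y).2) x v : ℝ) : ℂ) *
      (Complex.I * X3.Cor.ph (2 * Real.pi * (u x).2))) =
      ((2 * Real.pi * fderiv ℝ (fun y => (u y).2) x v : ℝ) : ℂ) * Complex.I *
      ((starRingEnd ℂ) (X3.Cor.ph (2 * Real.pi * (u x).2)) *
      X3.Cor.ph (2 * Real.pi * (u x).2)) by ring, h5, mul_one]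
  simp

/-- invariance under multiplication by positive functions -/
theorem bet_real {E : Type} [NormedAddCommGroup E] [NormedSpace ℝ E] [FiniteDimensional ℝ E]
    {u : E → Cn n} {c : E → ℝ} {x : E} (h : (DZ n).At u x) (hc : Sm c x) (hc0 : c x ≠ 0) :
    (bet n).val (fun y => c y • u y) x = (bet n).val u x := by
  have hc' : Sm (fun y => (c y : ℂ)) x := by
    filter_upwards [hc] with y hy
    exact Complex.ofRealCLM.contDiff.contDiffAt.comp y hy
  have e1 : (fun y => c y • u y) = fun y => (c y : ℂ) • u y := by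
    funext y
    ext j
    simp
  rw [e1, bet_mul h hc' (by exact_mod_cast hc0)]
  have h2 : HasFDerivAt (fun y => (c y : ℂ)) (Complex.ofRealCLM.comp (fderiv ℝ c x)) x :=
    Complex.ofRealCLM.hasFDerivAt.comp x hc.differentiableAt.hasFDerivAt
  rw [h2.fderiv]
  have h3 : Complex.imCLM.comp (((ContinuousLinearMap.mul ℝ ℂ) ((starRingEnd ℂ) (c x : ℂ))).comp
      (Complex.ofRealCLM.comp (fderiv ℝ c x))) = 0 := by
    ext v
    change ((starRingEnd ℂ) (c x : ℂ) * ((fderiv ℝ c x v : ℝ) : ℂ)).im = 0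
    rw [Complex.conj_ofReal, ← Complex.ofReal_mul, Complex.ofReal_im]
  rw [h3, smul_zero, map_zero, add_zero]

theorem isDeg_bet : Form.IsDeg 1 (bet n) := by
  unfold Form.IsDeg
  refine Form.ext_val fun E _ _ _ u x h => ?_
  rw [Form.part_val, bet_val h]
  rw [WA.prt_dx, if_pos rfl]

/-- the curvature has rank at most `2 (n - 1)` -/
theorem bet_d_pow : (bet n).d ^ n = 0 := by
  have hdim : WA.DimLE (DZ n) (2 * n) := by
    intro E _ _ _ u x hu
    refine ⟨Cn n, inferInstance, inferInstance, inferInstance, id, u, ?_, hu.1, ?_,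
      EventuallyEq.rfl⟩
    · rw [finrank_real_of_complex]
      simp
    · exact ⟨Sm.of_contDiff contDiff_id _, isOpen_ne0.mem_nhds hu.2.self_of_nhds⟩
  have h1 : bet n * (bet n).d ^ n = 0 := by
    refine hdim.isDeg_eq_zero (k := 1 + 2 * n) (by omega) ?_
    exact isDeg_bet.mul ((isDeg_bet.d).pow n)
  have hb : Basic hp map_hp ((bet n).d) := by
    rw [basic_def, Form.pull_d, pull_hp_bet, Form.d_add, Form.d_smul, dt_d, smul_zero, add_zero,
      pr_d]
  have h2 := congrArg (fun w => KT 1 (Form.pull hp map_hp w)) h1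
  have h3 : Form.pull hp map_hp (bet n * (bet n).d ^ n) =
      (pr (bet n) + (2 * Real.pi) • dt) * pr ((bet n).d ^ n) := by
    have h4 := map_mul (Form.pullA hp map_hp) (bet n) ((bet n).d ^ n)
    change Form.pull hp map_hp (bet n * (bet n).d ^ n) =
      Form.pull hp map_hp (bet n) * Form.pull hp map_hp ((bet n).d ^ n) at h4
    rw [h4, pull_hp_bet, Basic.pow hb n]
  simp only [h3] at h2
  have h5 : Form.pull hp map_hp (0 : Form (DZ n)) = 0 := map_zero (Form.pullA hp map_hp)
  rw [h5, KT_zero, add_mul, ← pr_mul, KT_add, KT_pr, zero_add, smul_mul_assoc, KT_smul,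
    KT_dt_mul_pr, one_smul] at h2
  exact (smul_eq_zero.1 h2).resolve_left (by positivity)

/-- the form `β (dβ)^M` -/
def omF (n M : ℕ) : Form (DZ n) := bet n * (bet n).d ^ M

theorem omF_val {M : ℕ} {E : Type} [NormedAddCommGroup E] [NormedSpace ℝ E]
    [FiniteDimensional ℝ E] {u : E → Cn n} {x : E} (h : (DZ n).At u x) :
    (omF n M).val u x = pb u (om (beta0 (xc n) (yc n)) M) x := by
  have h1 : ∀ k : ℕ, ((bet n).d ^ k).val u x = pb u (fun y => extd (beta0 (xc n) (yc n)) y ^ k) x := by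
    intro k
    induction k with
    | zero => rw [pow_zero, Form.one_val h]; simp [pb]
    | succ k ih =>
      rw [pow_succ, Form.mul_val, ih, bet_d_val h]
      simp only [pb, pow_succ, map_mul]
  rw [omF, Form.mul_val, h1, bet, ofOn_val _ _ _ h]
  simp only [pb, om, map_mul]

theorem omF_d {M : ℕ} (hM : n ≤ M + 1) : (omF n M).d = 0 := by
  have h1 : ∀ k : ℕ, ((bet n).d ^ k).d = 0 := by
    intro k
    induction k with
    | zero => rw [pow_zero, Form.d_one]
    | succ k ih => rw [pow_succ, Form.d_mul, ih, Form.d_d, zero_mul, mul_zero, add_zero]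
  rw [omF, Form.d_mul, h1, mul_zero, add_zero, ← pow_succ']
  obtain ⟨k, hk⟩ := Nat.exists_eq_add_of_le hM
  rw [hk, pow_add, bet_d_pow, zero_mul]

theorem omF_real {M : ℕ} {E : Type} [NormedAddCommGroup E] [NormedSpace ℝ E]
    [FiniteDimensional ℝ E] {u : E → Cn n} {c : E → ℝ} {x : E} (h : (DZ n).At u x) (hc : Sm c x)
    (hc0 : c x ≠ 0) : (omF n M).val (fun y => c y • u y) x = (omF n M).val u x := by
  have hc1 : ∀ᶠ y in 𝓝 x, c y ≠ 0 := hc.continuousAt.eventually_ne hc0
  have h0 : (DZ n).At (fun y => c y • u y) x := by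
    refine ⟨?_, ?_⟩
    · have h2 : Sm u x := h.1
      filter_upwards [h2, hc] with y hy1 hy2 using hy2.smul hy1
    · filter_upwards [h.2, hc1] with y hy1 hy2
      exact smul_ne_zero hy2 hy1
  have h1 : (bet n).d.val (fun y => c y • u y) x = (bet n).d.val u x := by
    rw [Form.d_val _ h0, Form.d_val _ h]
    refine extd_congr ?_
    filter_upwards [(DZ n).open' h, hc.eventually, hc1] with y hy1 hy2 hy3
    exact bet_real hy1 hy2 hy3
  have h2 : ∀ k : ℕ, ((bet n).d ^ k).val (fun y => c y • u y) x = ((bet n).d ^ k).val u x := by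
    intro k
    induction k with
    | zero => rw [pow_zero, Form.one_val h, Form.one_val h0]
    | succ k ih => rw [pow_succ, Form.mul_val, Form.mul_val, ih, h1]
  rw [omF, Form.mul_val, Form.mul_val, h2, bet_real h hc hc0]

end

end Vale.Agent.P231.SEG
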