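import Vale.Agent.P231.SEG.FI
import Vale.Agent.P231.SEG.Lam

/-!
# P231, stage 3, block SEG (6): the degree of an equivariant linear map along a plot
-/

set_option linter.unusedSectionVars false
set_option linter.unusedVariables false

open MeasureTheory Set Module Filter Topology
open scoped ContDiff

namespace Vale.Agent.P231.SEG

open Vale.Agent.P231.Fm Vale.Agent.P231.W Vale.Agent.P231.H584 Vale.Agent.P231.Co
  Vale.Agent.P231.WG Vale.Agent.P231.TW Vale.Agent.P231.BX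
open Vale.Agent.P231.Fm (Sm Dif Form Lam)

variable {B S Fr : Type*} {DB : Dif B} {DS : Dif S} {DF : Dif Fr}
variable {F : Type} [NormedAddCommGroup F] [InnerProductSpace ℝ F] [FiniteDimensional ℝ F]
  [MeasurableSpace F] [BorelSpace F] {m : ℕ} {o : OrthonormalBasis (Fin m) ℝ F}
variable {π : S → B} {q : Fr → B} {ev : Fr × F → S}

/-- an equivariant map of weight one to `ℂⁿ`, linear in the fibres and without zeros -/
structure LM (s : Seg DB DS DF F π q ev) (n : ℕ) where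
  G : S → Cn n
  hG : DS.Map (Dif.lin (Cn n)) G
  P : Fr × F → Cn n
  hP : (D1 DF F).Map (Dif.lin (Cn n)) P
  hPG : ∀ f ξ, ‖ξ‖ = 1 → P (f, ξ) = G (ev (f, ξ))
  hom : ∀ f ξ (c : ℝ), P (f, c • ξ) = c • P (f, ξ)
  c : ℝ
  hc : 0 < c
  low : ∀ {E : Type} [NormedAddCommGroup E] [NormedSpace ℝ E] [FiniteDimensional ℝ E]
    {u : E → Fr} {x : E}, DF.At u x → ∀ ξ, c * ‖ξ‖ ≤ ‖P (u x, ξ)‖
  eqΦ : ∀ x t, G (s.Φ (x, t)) = X3.Cor.ph (2 * Real.pi * t) • G x
  eqR : ∀ x t, G (s.R (x, t)) = X3.Cor.ph (2 * Real.pi * t) • G x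

namespace LM

variable {s : Seg DB DS DF F π q ev} {n : ℕ} (L : LM s n)

theorem P_zero (f : Fr) : L.P (f, 0) = 0 := by
  have h1 := L.hom f 0 0
  rw [smul_zero, zero_smul] at h1
  exact h1

theorem P_eq (f : Fr) {ξ : F} (hξ : ξ ≠ 0) :
    L.P (f, ξ) = ‖ξ‖ • L.G (ev (f, ‖ξ‖⁻¹ • ξ)) := by
  have h0 : ‖ξ‖ ≠ 0 := norm_ne_zero_iff.2 hξ
  have h1 : ‖‖ξ‖⁻¹ • ξ‖ = 1 := by
    rw [norm_smul, norm_inv, norm_norm, inv_mul_cancel₀ h0]
  rw [← L.hPG f _ h1, ← L.hom, smul_smul, mul_inv_cancel₀ h0, one_smul]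

/-- change of frame -/
theorem P_trans {f f' : Fr} {g : F →L[ℝ] F} (hg : ∀ ξ, ‖g ξ‖ = ‖ξ‖)
    (h : ∀ ξ, ‖ξ‖ = 1 → ev (f', ξ) = ev (f, g ξ)) (ξ : F) : L.P (f, g ξ) = L.P (f', ξ) := by
  by_cases hξ : ξ = 0
  · rw [hξ, map_zero, L.P_zero, L.P_zero]
  · have h0 : ‖ξ‖ ≠ 0 := norm_ne_zero_iff.2 hξ
    have h1 : ‖‖ξ‖⁻¹ • ξ‖ = 1 := by
      rw [norm_smul, norm_inv, norm_norm, inv_mul_cancel₀ h0]
    have h2 : g ξ ≠ 0 := by
      rw [← norm_ne_zero_iff, hg]
      exact h0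
    rw [L.P_eq f h2, L.P_eq f' hξ, hg, h _ h1, map_smul]

/-- equivariance -/
theorem P_equiv (f : Fr) (ξ : F) (t : ℝ) : L.P (s.φF (f, t), ξ) = L.P (f, s.ρ t ξ) := by
  have hiso : ∀ ξ, ‖s.ρ t ξ‖ = ‖ξ‖ := fun ξ =>
    s.vr.rt.iso (u := fun r : ℝ => r) (x := t) (Sm.of_contDiff contDiff_id _) ξ
  by_cases hξ : ξ = 0
  · rw [hξ, map_zero, L.P_zero, L.P_zero]
  · have h0 : ‖ξ‖ ≠ 0 := norm_ne_zero_iff.2 hξ
    have h1 : ‖‖ξ‖⁻¹ • ξ‖ = 1 := by
      rw [norm_smul, norm_inv, norm_norm, inv_mul_cancel₀ h0]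
    have h2 : s.ρ t ξ ≠ 0 := by
      rw [← norm_ne_zero_iff, hiso]
      exact h0
    rw [L.P_eq _ hξ, L.P_eq _ h2, hiso, ← s.hΦe _ _ _ h1, L.eqΦ, ← map_smul, ← s.hRe _ _ _ h1,
      L.eqR]

theorem invF_pull (w : Form (Dif.lin (Cn n))) : InvF q ev (Form.pull L.P L.hP w) := by
  refine ⟨Form.ext_val fun E _ _ _ u x hu => ?_⟩
  rw [Form.pull_val _ _ hu, Form.pull_val _ _ hu, Form.pull_val _ _ (map_ma hu),
    Form.pull_val _ _ (map_mb hu)]
  refine w.congr (L.hP (map_ma hu)) ?_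
  filter_upwards [hu.1.2] with y hy
  exact L.P_trans hy.1 hy.2.2.1 _

theorem equiv_pull (w : Form (Dif.lin (Cn n))) :
    Form.pull (fun p : (Fr × ℝ) × F => (s.φF p.1, p.2)) (map_prodF s.hφF)
      (Form.pull L.P L.hP w) = Form.pull (am Prod.fst fun p : Fr × ℝ => s.ρ p.2)
        (map_am (Dif.map_fst (D := DF) (D' := Dif.lin ℝ)) (rt_snd s.vr.rt))
          (Form.pull L.P L.hP w) := by
  have hk : (D1 (DF.prod (Dif.lin ℝ)) F).Map (Dif.lin (Cn n))
      (fun p : (Fr × ℝ) × F => L.P (s.φF p.1, p.2)) := fun hu => L.hP (map_prodF s.hφF hu)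
  refine (pull_pull (k := fun p : (Fr × ℝ) × F => L.P (s.φF p.1, p.2)) (map_prodF s.hφF) L.hP hk
    (fun p => rfl) w).trans ?_
  refine (pull_pull (k := fun p : (Fr × ℝ) × F => L.P (s.φF p.1, p.2)) _ L.hP hk
    (fun p => ?_) w).symm
  exact (L.P_equiv _ _ _).symm

theorem vc_pull {η : Cn n → Lam (Cn n)} (hη : ContDiff ℝ ∞ η) {R : ℝ}
    (h0 : ∀ y, R < ‖y‖ → η y = 0) : Vc (R / L.c) (Form.pull L.P L.hP (Form.ofLin η hη)) :=
  ⟨fun {E} _ _ _ {u x} hu hx => by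
    have hx' : R / L.c < ‖(u x).2‖ := hx
    have h1 := L.low (u := fun y => (u y).1) (x := x) hu.1 (u x).2
    rw [div_lt_iff₀ L.hc, mul_comm] at hx'
    rw [Form.pull_val _ _ hu, Form.ofLin_val _ _ (L.hP hu)]
    change Fm.pull _ (η (L.P (u x))) = 0
    rw [h0 _ (hx'.trans_le h1), map_zero]⟩

theorem exists_bound {η : Cn n → Lam (Cn n)} (hc : HasCompactSupport η) :
    ∃ R, ∀ y, R < ‖y‖ → η y = 0 := by
  obtain ⟨R, hR⟩ := hc.isCompact.isBounded.subset_closedBall (0 : Cn n)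
  refine ⟨R, fun y hy => image_eq_zero_of_notMem_tsupport fun h => ?_⟩
  have := hR h
  rw [mem_closedBall_zero_iff] at this
  linarith

section Degree

variable {V : Type} [NormedAddCommGroup V] [NormedSpace ℝ V] [FiniteDimensional ℝ V]
  [MeasurableSpace V] [BorelSpace V] {N : ℕ} (b : Basis (Fin N) ℝ V) {A U : Set V}
  {G : V → B} {f : V → Fr}

/-- a plot of the base over a domain, with a frame along it -/
structure Bx (s : Seg DB DS DF F π q ev) (b : Basis (Fin N) ℝ V) (A U : Set V) (G : V → B)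
    (f : V → Fr) : Prop where
  cpt : IsCompact A
  nul : b.addHaar (frontier A) = 0
  opn : IsOpen U
  sub : A ⊆ U
  frm : ∀ x ∈ U, DF.At f x
  bas : ∀ x ∈ U, q ∘ f =ᶠ[𝓝 x] G
  Q : ∀ a : Form DB, Basic s.φ s.hφ a → JD b A (a.d.val G) = 0

variable {b}

theorem JD_smul (c : ℝ) (a : Form DB) : JD b A ((c • a).val G) = c * JD b A (a.val G) := by
  unfold JD
  rw [← integral_const_mul]
  refine integral_congr_ae (Eventually.of_forall fun x => ?_)
  change evalL b ((c • a).val G x) = c * evalL b (a.val G x)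
  rw [Form.smul_val, map_smul, smul_eq_mul]

include o in
/-- the integral over the model bundle of the pull back of an exact form vanishes -/
theorem JD_exact (hB : Bx s b A U G f) {η : Cn n → Lam (Cn n)} (hη : ContDiff ℝ ∞ η)
    (hc : HasCompactSupport η) : JD (pB b o.toBasis) (A ×ˢ univ)
      ((Form.pull L.P L.hP (Form.ofLin (extd η) (Form.contDiff_extd hη))).val (cylF f)) = 0 := by
  obtain ⟨R, hR⟩ := exists_bound hc
  have hv := L.vc_pull hη hR
  obtain ⟨a, ha⟩ := exists_FI o s.bun (L.invF_pull (Form.ofLin η hη)) hv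
  have hab : Basic s.φ s.hφ a := ha.basic s hv (L.equiv_pull _)
  have hd : (Form.pull L.P L.hP (Form.ofLin η hη)).d =
      Form.pull L.P L.hP (Form.ofLin (extd η) (Form.contDiff_extd hη)) := by
    rw [← Form.pull_d, Form.d_ofLin]
  have had := ha.d hv
  rw [hd] at had
  have hR' : ∀ y, R < ‖y‖ → extd η y = 0 := fun y hy => by
    have h1 : η =ᶠ[𝓝 y] fun _ => 0 := by
      filter_upwards [(isOpen_lt continuous_const continuous_norm).mem_nhds hy] with z hz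
      exact hR z hz
    rw [extd_congr h1, extd_const]
  have hv' := L.vc_pull (Form.contDiff_extd hη) hR'
  rw [← JD_FI b hB.cpt (fun x hx => hB.frm x (hB.sub hx)) (fun x hx => hB.bas x (hB.sub hx)) hv'
    had, JD_smul, hB.Q a hab, mul_zero]

/-- **integrality** -/
theorem exists_deg (hN : 0 < n) (hB : Bx s b A U G f) (bW : Basis (Fin (m + N)) ℝ (Cn n)) :
    ∃ k : ℤ, ∀ (Ω : Cn n → Lam (Cn n)) (hΩ : ContDiff ℝ ∞ Ω), HasCompactSupport Ω →
      JD (pB b o.toBasis) (A ×ˢ univ) ((Form.pull L.P L.hP (Form.ofLin Ω hΩ)).val (cylF f)) =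
        k * JJ bW Ω := by
  obtain ⟨κ, hκs, hκc, hκ, hκ1, hκU⟩ : ∃ κ : V → ℝ, ContDiff ℝ ∞ κ ∧ HasCompactSupport κ ∧
      (∀ x, 0 ≤ κ x) ∧ (∀ᶠ x in 𝓝ˢ A, κ x = 1) ∧ tsupport κ ⊆ U := by
    obtain ⟨W1, hW1, hAW, hWU, hWc⟩ := exists_open_between_and_isCompact_closure hB.cpt hB.opn
      hB.sub
    obtain ⟨W2, hW2, hAW2, hWU2, hWc2⟩ := exists_open_between_and_isCompact_closure hB.cpt hW1
      hAW
    obtain ⟨g, hg1, hg2, hs, hg3⟩ := exists_contMDiff_support_eq_eq_one_iff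
      (modelWithCornersSelf ℝ V) (n := (⊤ : ℕ∞)) hW1 (isClosed_closure (s := W2)) hWU2
    refine ⟨g, hg1.contDiff, ?_, fun x => (hg2 ⟨x, rfl⟩).1, ?_, ?_⟩
    · refine HasCompactSupport.of_support_subset_isCompact hWc ?_
      rw [hs]
      exact subset_closure
    · refine eventually_nhdsSet_iff_forall.2 fun x hx => ?_
      filter_upwards [hW2.mem_nhds (hAW2 hx)] with y hy
      exact (hg3 y).1 (subset_closure hy)
    · rw [tsupport, hs]
      exact hWU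
  set Ψ : V × F → Cn n := fun z => κ z.1 • L.P (f z.1, z.2) with hΨ
  have hPs : ∀ z : V × F, z.1 ∈ U → Sm (fun z : V × F => L.P (f z.1, z.2)) z := fun z hz =>
    L.hP (cylF_at (hB.frm z.1 hz) z.2)
  have hΨs : ContDiff ℝ ∞ Ψ := by
    refine contDiff_iff_contDiffAt.2 fun z => ?_
    by_cases hz : z.1 ∈ tsupport κ
    · exact (hκs.contDiffAt.comp z contDiffAt_fst).smul (hPs z (hκU hz)).contDiffAt
    · have h1 : Ψ =ᶠ[𝓝 z] fun _ => 0 := by
        have h2 : ∀ᶠ y in 𝓝 z.1, κ y = 0 := notMem_tsupport_iff_eventuallyEq.1 hz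
        filter_upwards [continuousAt_fst.eventually h2] with y hy
        simp only [hΨ, hy, zero_smul]
      exact contDiffAt_const.congr_of_eventuallyEq h1
  have hΨA : ∀ z : V × F, z.1 ∈ A → Ψ =ᶠ[𝓝 z] fun z => L.P (f z.1, z.2) := fun z hz => by
    have h2 : ∀ᶠ y in 𝓝 z.1, κ y = 1 := (eventually_nhdsSet_iff_forall.1 hκ1) z.1 hz
    filter_upwards [continuousAt_fst.eventually h2] with y hy
    simp only [hΨ, hy, one_smul]
  have hval : ∀ (Ω : Cn n → Lam (Cn n)) (hΩ : ContDiff ℝ ∞ Ω),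
      JD (pB b o.toBasis) (A ×ˢ univ) (pb Ψ Ω) =
        JD (pB b o.toBasis) (A ×ˢ univ)
          ((Form.pull L.P L.hP (Form.ofLin Ω hΩ)).val (cylF f)) := by
    intro Ω hΩ
    unfold JD
    refine setIntegral_congr_fun (hB.cpt.measurableSet.prod MeasurableSet.univ) fun z hz => ?_
    have h3 := cylF_at (F := F) (hB.frm z.1 (hB.sub hz.1)) z.2
    change evalForm (pb Ψ Ω z) _ = evalForm ((Form.pull L.P L.hP (Form.ofLin Ω hΩ)).val (cylF f) z) _
    have h4 : (Form.pull L.P L.hP (Form.ofLin Ω hΩ)).val (cylF f) z =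
        pb (L.P ∘ cylF f) Ω z := by
      rw [Form.pull_val _ _ h3, Form.ofLin_val _ _ (L.hP h3)]
    rw [h4, pb_congr Ω (hΨA z hz.1)]
    rfl
  have hclosed : IsClosed (A ×ˢ (univ : Set F)) := hB.cpt.isClosed.prod isClosed_univ
  have hfr : (pB b o.toBasis).addHaar (frontier (A ×ˢ (univ : Set F))) = 0 := by
    rw [frontier_prod_univ_eq, addHaar_pB, Measure.prod_prod, hB.nul, zero_mul]
  have hprop : ∀ K, IsCompact K → IsCompact ((A ×ˢ (univ : Set F)) ∩ Ψ ⁻¹' K) := by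
    intro K hK
    obtain ⟨R, hR⟩ := hK.isBounded.subset_closedBall (0 : Cn n)
    refine (hB.cpt.prod (isCompact_closedBall (0 : F) (R / L.c))).of_isClosed_subset
      (hclosed.inter (hK.isClosed.preimage hΨs.continuous)) ?_
    rintro z ⟨hz1, hz2⟩
    refine ⟨hz1.1, ?_⟩
    have h1 : Ψ z ∈ K := hz2
    have h2 := hR h1
    rw [(hΨA z hz1.1).self_of_nhds, mem_closedBall_zero_iff] at h2
    have h3 := L.low (hB.frm z.1 (hB.sub hz1.1)) z.2
    rw [mem_closedBall_zero_iff, le_div_iff₀ L.hc, mul_comm]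
    exact h3.trans h2
  have hmN : 0 < m + N := by
    have h1 := finrank_eq_card_basis bW
    rw [Fintype.card_fin, finrank_real_of_complex] at h1
    have h2 : finrank ℂ (Cn n) = n := by simp
    omega
  obtain ⟨k, hk⟩ := exists_int_form hmN (pB b o.toBasis) bW hΨs hclosed hfr hprop
    (fun η hη hηc => by
      rw [hval _ (Form.contDiff_extd hη)]
      exact L.JD_exact (o := o) hB hη hηc)
  refine ⟨k, fun Ω hΩ hΩc => ?_⟩
  rw [← hval Ω hΩ]
  exact hk Ω hΩ hΩc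

end Degree

end LM

end Vale.Agent.P231.SEG
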