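import Vale.Agent.P231.SEG.Push
import Vale.Agent.P231.H584.Box

/-!
# P231, stage 3, block SEG (4): vertical integrals of forms on the model vector bundle
-/

set_option linter.unusedSectionVars false
set_option linter.unusedVariables false

open MeasureTheory Set Module Filter Topology
open scoped ContDiff

namespace Vale.Agent.P231.SEG

open Vale.Agent.P231.Fm Vale.Agent.P231.W Vale.Agent.P231.H584 Vale.Agent.P231.Co
  Vale.Agent.P231.WG Vale.Agent.P231.TW Vale.Agent.P231.BX
open Vale.Agent.P231.Fm (Sm Dif Form Lam)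

variable {B S Fr : Type*} {DB : Dif B} {DS : Dif S} {DF : Dif Fr}
variable {F : Type} [NormedAddCommGroup F] [InnerProductSpace ℝ F] [FiniteDimensional ℝ F]
  [MeasurableSpace F] [BorelSpace F] {m : ℕ} (o : OrthonormalBasis (Fin m) ℝ F)
variable {π : S → B} {q : Fr → B} {ev : Fr × F → S}

/-- `a` is the vertical integral of `w` -/
structure FI (h : Bun DB DS DF F π q ev) (w : Form (D1 DF F)) (a : Form DB) : Prop where
  eq : Form.pull q h.hq.map a = Form.fi o w

variable {o} {h : Bun DB DS DF F π q ev}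

theorem basF_fi {w : Form (D1 DF F)} {R : ℝ} (hw : InvF q ev w) (hv : Vc R w) :
    BasF q ev (Form.fi o w) :=
  ⟨by
    have h1 := am_fi o (map_gs (DF := DF) (q := q) (ev := ev)) rt_gg hv
    have h2 := am_fi o (map_gt (DF := DF) (q := q) (ev := ev)) rt_id hv
    have e := hw.eq
    change Form.pull (am _ _) _ w = Form.pull (am _ _) _ w at e
    rw [e, h2] at h1
    exact h1.symm⟩

theorem exists_FI (o : OrthonormalBasis (Fin m) ℝ F) (h : Bun DB DS DF F π q ev)
    {w : Form (D1 DF F)} {R : ℝ} (hw : InvF q ev w) (hv : Vc R w) :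
    ∃ a, FI o h w a :=
  ⟨desc h.hq (Form.fi o w) (h.bsc_of_basF (basF_fi hw hv)), ⟨pull_desc _ _⟩⟩

theorem FI.unique {w : Form (D1 DF F)} {a a' : Form DB} (ha : FI o h w a) (ha' : FI o h w a') :
    a = a' := pull_inj h.hq (ha.eq.trans ha'.eq.symm)

theorem FI.d {w : Form (D1 DF F)} {R : ℝ} (hv : Vc R w) {a : Form DB} (ha : FI o h w a) :
    FI o h w.d ((-1 : ℝ) ^ m • a.d) :=
  ⟨by rw [Form.fi_d (vc_of_van hv), Co.pull_smul, Form.pull_d, ha.eq]⟩

theorem FI.add {w w' : Form (D1 DF F)} {R R' : ℝ} (hv : Vc R w) (hv' : Vc R' w') {a a' : Form DB}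
    (ha : FI o h w a) (ha' : FI o h w' a') : FI o h (w + w') (a + a') :=
  ⟨by rw [Form.fi_add (vc_of_van hv) (vc_of_van hv'), Co.pull_add, ha.eq, ha'.eq]⟩

theorem FI_dx (h : Bun DB DS DF F π q ev) (σ : Form DS) :
    FI o h (Co.dx (Form.pull ev h.hev σ)) (h.SI o σ) := ⟨h.pull_SI o σ⟩

/-- vertical integrals of equivariant forms are basic -/
theorem FI.basic (s : Seg DB DS DF F π q ev) {w : Form (D1 DF F)} {R : ℝ} (hv : Vc R w)
    {a : Form DB} (ha : FI o s.bun w a)
    (hw : Form.pull (fun p : (Fr × ℝ) × F => (s.φF p.1, p.2)) (map_prodF s.hφF) w =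
      Form.pull (am Prod.fst fun p : Fr × ℝ => s.ρ p.2)
        (map_am (Dif.map_fst (D := DF) (D' := Dif.lin ℝ)) (rt_snd s.vr.rt)) w) :
    Basic s.φ s.hφ a := by
  refine pull_inj (quo_cyl s.bun.hq) ?_
  have k1 : (DF.prod (Dif.lin ℝ)).Map DB (fun p : Fr × ℝ => q (s.φF p)) :=
    fun hu => s.bun.hq.map (s.hφF hu)
  have k2 : (DF.prod (Dif.lin ℝ)).Map DB (fun p : Fr × ℝ => q p.1) :=
    fun hu => s.bun.hq.map (Dif.map_fst hu)
  rw [pull_pull (k := fun p : Fr × ℝ => q (s.φF p)) (quo_cyl s.bun.hq).map s.hφ k1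
    (fun p => (s.hqφ p.1 p.2).symm), pr, pull_pull (k := fun p : Fr × ℝ => q p.1)
    (quo_cyl s.bun.hq).map Dif.map_fst k2 (fun p => rfl),
    ← pull_pull (k := fun p : Fr × ℝ => q (s.φF p)) s.hφF s.bun.hq.map k1 (fun p => rfl),
    ← pull_pull (k := fun p : Fr × ℝ => q p.1) Dif.map_fst s.bun.hq.map k2 (fun p => rfl),
    ha.eq, ← am_fi o Dif.map_fst (rt_snd s.vr.rt) hv, ← Form.fi_nat s.hφF (vc_of_van hv), hw]

section Int

variable {V : Type} [NormedAddCommGroup V] [NormedSpace ℝ V] [FiniteDimensional ℝ V]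
  [MeasurableSpace V] [BorelSpace V] {N : ℕ}

theorem addHaar_pB (b : Basis (Fin N) ℝ V) (o : OrthonormalBasis (Fin m) ℝ F) :
    (pB b o.toBasis).addHaar = b.addHaar.prod (volume : Measure F) := by
  rw [pB, Basis.addHaar_reindex, Basis.prod_addHaar, o.addHaar_eq_volume]

/-- the integral of a form along a plot of the base, as an integral over the model bundle -/
theorem JD_FI (b : Basis (Fin N) ℝ V) {A : Set V} (hA : IsCompact A) {G : V → B} {f : V → Fr}
    (hf : ∀ x ∈ A, DF.At f x) (hG : ∀ x ∈ A, q ∘ f =ᶠ[𝓝 x] G) {w : Form (D1 DF F)} {R : ℝ}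
    (hv : Vc R w) {a : Form DB} (ha : FI o h w a) :
    JD b A (a.val G) = JD (pB b o.toBasis) (A ×ˢ univ) (w.val (cylF f)) := by
  have hvc : w.VC R := vc_of_van hv
  set W : V × F → Lam (V × F) := w.val (cylF f) with hW
  have h1 : ∀ x ∈ A, a.val G x = fib volume o W x := by
    intro x hx
    have e1 : a.val G x = a.val (q ∘ f) x := (a.congr (h.hq.map (hf x hx)) (hG x hx)).symm
    rw [e1]
    have e2 := congrArg (fun f' : Form DF => f'.val f x) ha.eq
    change (Form.pull q h.hq.map a).val f x = (Form.fi o w).val f x at e2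
    rw [Form.pull_val _ _ (hf x hx), Form.fi_val hvc (hf x hx)] at e2
    exact e2
  have h2 : ∀ x ∈ A, evalForm (a.val G x) b = ∫ ξ, evalForm (W (x, ξ)) (pB b o.toBasis) := by
    intro x hx
    rw [h1 x hx, fib]
    have e3 := ContinuousLinearMap.integral_comp_comm (evalL (b : Fin N → V))
      (hvc.integrable (hf x hx) o)
    refine e3.symm.trans (integral_congr_ae (Eventually.of_forall fun ξ => ?_))
    change evalForm (slice o (w.val (cylF f) (x, ξ))) b = evalForm (W (x, ξ)) (pB b o.toBasis)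
    rw [evalForm_pB, OrthonormalBasis.coe_toBasis]
  have hcont : ContinuousOn W (A ×ˢ univ) := fun p hp =>
    ((w.smooth (cylF_at (hf p.1 hp.1) p.2)).continuousAt).continuousWithinAt
  have hWe : ContinuousOn (fun p => evalForm (W p) (pB b o.toBasis)) (A ×ˢ univ) :=
    (evalL (pB b o.toBasis)).continuous.comp_continuousOn hcont
  have hint : IntegrableOn (fun p => evalForm (W p) (pB b o.toBasis)) (A ×ˢ univ)
      (b.addHaar.prod (volume : Measure F)) := by
    have h3 : IntegrableOn (fun p => evalForm (W p) (pB b o.toBasis))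
        (A ×ˢ Metric.closedBall (0 : F) R) (b.addHaar.prod (volume : Measure F)) :=
      (hWe.mono (prod_mono_right (subset_univ _))).integrableOn_compact
        (hA.prod (isCompact_closedBall _ _))
    refine h3.of_forall_sdiff_eq_zero (hA.measurableSet.prod MeasurableSet.univ) fun p hp => ?_
    have h4 : p.2 ∉ Metric.closedBall (0 : F) R := fun h5 => hp.2 ⟨hp.1.1, h5⟩
    have h5 : W p = 0 := hvc.out (hf p.1 hp.1.1) h4
    rw [h5, evalForm_apply, map_zero, map_zero]
  unfold JD
  rw [addHaar_pB, setIntegral_prod _ hint]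
  refine setIntegral_congr_fun hA.measurableSet fun x hx => ?_
  change evalForm (a.val G x) b = ∫ ξ in univ, evalForm (W (x, ξ)) (pB b o.toBasis)
  rw [h2 x hx, setIntegral_univ]

end Int

end Vale.Agent.P231.SEG
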