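import Vale.Agent.P231.SEG.Ver
import Vale.Agent.P231.S2T.Fam
import Vale.Agent.P231.H584.Mod

/-!
# P231, stage 3, block SEG (2): the formal part

`S → B` is a sphere bundle with a lifted flow `Φ` and a flow `R` of the fibres, `l` a functional
on the forms of `B` which kills the differentials of basic forms.
-/

set_option linter.unusedSectionVars false
set_option linter.unusedVariables false

open MeasureTheory Set Module Filter Topology
open scoped ContDiff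

namespace Vale.Agent.P231.SEG

open Vale.Agent.P231.Fm Vale.Agent.P231.W Vale.Agent.P231.H584 Vale.Agent.P231.Co
  Vale.Agent.P231.WG
open Vale.Agent.P231.Fm (Sm Dif Form Lam)

/-- a sphere bundle with a lifted flow and a flow of the fibres -/
structure Seg {B S Fr : Type*} (DB : Dif B) (DS : Dif S) (DF : Dif Fr) (F : Type)
    [NormedAddCommGroup F] [InnerProductSpace ℝ F] [FiniteDimensional ℝ F] (π : S → B)
    (q : Fr → B) (ev : Fr × F → S) where
  bun : Bun DB DS DF F π q ev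
  φ : B × ℝ → B
  hφ : (DB.prod (Dif.lin ℝ)).Map DB φ
  Φ : S × ℝ → S
  hΦ : (DS.prod (Dif.lin ℝ)).Map DS Φ
  R : S × ℝ → S
  hR : (DS.prod (Dif.lin ℝ)).Map DS R
  φF : Fr × ℝ → Fr
  hφF : (DF.prod (Dif.lin ℝ)).Map DF φF
  ρ : ℝ → F →L[ℝ] F
  X : F →L[ℝ] F
  vr : VR ρ X
  hqφ : ∀ f t, q (φF (f, t)) = φ (q f, t)
  hΦe : ∀ f ξ t, ‖ξ‖ = 1 → Φ (ev (f, ξ), t) = ev (φF (f, t), ξ)
  hRe : ∀ f ξ t, ‖ξ‖ = 1 → R (ev (f, ξ), t) = ev (f, ρ t ξ)
  hπΦ : ∀ s t, π (Φ (s, t)) = φ (π s, t)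
  hπR : ∀ s t, π (R (s, t)) = π s

namespace Seg

variable {B S Fr : Type*} {DB : Dif B} {DS : Dif S} {DF : Dif Fr}
variable {F : Type} [NormedAddCommGroup F] [InnerProductSpace ℝ F] [FiniteDimensional ℝ F]
  [MeasurableSpace F] [BorelSpace F] {m : ℕ} (o : OrthonormalBasis (Fin m) ℝ F)
variable {π : S → B} {q : Fr → B} {ev : Fr × F → S} (s : Seg DB DS DF F π q ev)

/-- the pullback from the base -/
noncomputable def pi (a : Form DB) : Form DS := Form.pull π s.bun.hπ a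

/-- the fibre integral -/
noncomputable def I (σ : Form DS) : Form DB := s.bun.SI o σ

theorem pi_d (a : Form DB) : s.pi a.d = (s.pi a).d := Form.pull_d π s.bun.hπ a

theorem pi_sg (a : Form DB) : s.pi a.sg = (s.pi a).sg := Form.pull_sg π s.bun.hπ a

theorem pi_neg (a : Form DB) : s.pi (-a) = -s.pi a :=
  map_neg (Form.pullA π s.bun.hπ) a

theorem pi_mul (a b : Form DB) : s.pi (a * b) = s.pi a * s.pi b :=
  map_mul (Form.pullA π s.bun.hπ) a b

theorem basic_R_pi (a : Form DB) : Basic s.R s.hR (s.pi a) := by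
  have hk : (DS.prod (Dif.lin ℝ)).Map DB (fun p : S × ℝ => π p.1) :=
    fun hu => s.bun.hπ (Dif.map_fst hu)
  exact (pull_pull (k := fun p : S × ℝ => π p.1) s.hR s.bun.hπ hk (fun p => s.hπR p.1 p.2)
    a).trans (pull_pull (k := fun p : S × ℝ => π p.1) Dif.map_fst s.bun.hπ hk
      (fun p => rfl) a).symm

theorem pull_Φ_pi (a : Form DB) : Form.pull s.Φ s.hΦ (s.pi a) =
    Form.pull (fun p : S × ℝ => (π p.1, p.2)) (map_cyl s.bun.hπ) (Form.pull s.φ s.hφ a) := by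
  have hk : (DS.prod (Dif.lin ℝ)).Map DB (fun p : S × ℝ => s.φ (π p.1, p.2)) :=
    fun hu => s.hφ (map_cyl s.bun.hπ hu)
  exact (pull_pull (k := fun p : S × ℝ => s.φ (π p.1, p.2)) s.hΦ s.bun.hπ hk
    (fun p => s.hπΦ p.1 p.2) a).trans (pull_pull (k := fun p : S × ℝ => s.φ (π p.1, p.2))
      (map_cyl s.bun.hπ) s.hφ hk (fun p => rfl) a).symm

theorem pull_cyl_pr (a : Form DB) :
    Form.pull (fun p : S × ℝ => (π p.1, p.2)) (map_cyl s.bun.hπ) (pr a) = pr (s.pi a) := by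
  have hk : (DS.prod (Dif.lin ℝ)).Map DB (fun p : S × ℝ => π p.1) :=
    fun hu => s.bun.hπ (Dif.map_fst hu)
  exact (pull_pull (k := fun p : S × ℝ => π p.1) (map_cyl s.bun.hπ) Dif.map_fst hk
    (fun p => rfl) a).trans (pull_pull (k := fun p : S × ℝ => π p.1) Dif.map_fst s.bun.hπ hk
      (fun p => rfl) a).symm

theorem pull_cyl_dt : Form.pull (fun p : S × ℝ => (π p.1, p.2)) (map_cyl s.bun.hπ)
    (dt (D := DB)) = dt := by
  have k1 : (DB.prod (Dif.lin ℝ)).Map (Dif.lin ℝ) (Prod.snd : B × ℝ → ℝ) := Dif.map_snd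
  have k2 : (DS.prod (Dif.lin ℝ)).Map (Dif.lin ℝ) (Prod.snd : S × ℝ → ℝ) := Dif.map_snd
  have k3 : (DS.prod (Dif.lin ℝ)).Map (DB.prod (Dif.lin ℝ))
    (fun p : S × ℝ => (π p.1, p.2)) := map_cyl s.bun.hπ
  have k4 : Form.pull (fun p : S × ℝ => (π p.1, p.2)) k3 (Form.fn _ k1) = Form.fn _ k2 := by
    refine Form.ext_val fun E _ _ _ u x hu => ?_
    rw [Form.pull_val _ _ hu, Form.fn_val _ k2 hu, Form.fn_val _ k1 (k3 hu)]
    rfl
  exact (Form.pull_d _ k3 (Form.fn _ k1)).trans (congrArg Form.d k4)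

theorem basic_Φ_pi {a : Form DB} (ha : Basic s.φ s.hφ a) : Basic s.Φ s.hΦ (s.pi a) := by
  rw [basic_def, s.pull_Φ_pi, ha, s.pull_cyl_pr]

theorem contact_pi {θ : Form DB} (hθ : Form.pull s.φ s.hφ θ = pr θ + dt) :
    Form.pull s.Φ s.hΦ (s.pi θ) = pr (s.pi θ) + dt := by
  rw [s.pull_Φ_pi, hθ, pull_add, s.pull_cyl_pr, s.pull_cyl_dt]

theorem I_basic {w : Form DS} (hw : Basic s.R s.hR w) : s.I o w = 0 :=
  SI_eq_zero_of_basic o s.bun s.vr s.hR s.hRe hw

theorem basic_I {w : Form DS} (hw : Basic s.Φ s.hΦ w) : Basic s.φ s.hφ (s.I o w) :=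
  basic_SI' o s.bun s.hφ s.hΦ s.hφF s.hqφ s.hΦe hw

theorem basic_I_eqv {w : Form DS} (hw : Form.pull s.Φ s.hΦ w = Form.pull s.R s.hR w) :
    Basic s.φ s.hφ (s.I o w) :=
  basic_SI o s.bun s.vr.rt s.hR s.hRe s.hφ s.hΦ s.hφF s.hqφ s.hΦe hw

/-- `l` kills the differentials of basic forms -/
structure Q (l : Form DB →ₗ[ℝ] ℝ) : Prop where
  out : ∀ w : Form DB, Basic s.φ s.hφ w → l w.d = 0

variable {s} {l : Form DB →ₗ[ℝ] ℝ}

/-- differentials of forms with basic fibre integral -/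
theorem Q.I_d (hQ : s.Q l) {w : Form DS} (hw : Basic s.φ s.hφ (s.I o w)) :
    l (s.I o w.d) = 0 := by
  rw [I, s.bun.SI_d o, map_smul]
  have := hQ.out _ hw
  rw [I] at this
  rw [this, smul_zero]

theorem Q.eqv_d (hQ : s.Q l) {w : Form DS}
    (hw : Form.pull s.Φ s.hΦ w = Form.pull s.R s.hR w) : l (s.I o w.d) = 0 :=
  hQ.I_d o (s.basic_I_eqv o hw)

theorem I_add (a b : Form DS) : s.I o (a + b) = s.I o a + s.I o b := s.bun.SI_add o a b

theorem I_sub (a b : Form DS) : s.I o (a - b) = s.I o a - s.I o b := s.bun.SI_sub o a b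

theorem I_pi_mul (a : Form DB) {w : Form DS} (hw : s.I o w = 0) : s.I o (s.pi a * w) = 0 := by
  rw [I, pi, s.bun.SI_π_mul o]
  rw [I] at hw
  rw [hw, mul_zero]

/-- the contact data: `θ` on the base, `η` on the total space -/
structure Con (s : Seg DB DS DF F π q ev) (θ : Form DB) (η : Form DS) : Prop where
  hθ : Form.pull s.φ s.hφ θ = pr θ + dt
  hθo : θ.sg = -θ
  hηΦ : Basic s.Φ s.hΦ η
  hηR : Form.pull s.R s.hR η = pr η + dt
  hηo : η.sg = -η

variable {θ : Form DB} {η : Form DS}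

theorem Con.basic_e (h : s.Con θ η) : Basic s.φ s.hφ θ.d := by
  rw [basic_def, Form.pull_d, h.hθ, Form.d_add, dt_d, add_zero, pr_d]

theorem Con.basic_hR (h : s.Con θ η) : Basic s.R s.hR η.d := by
  rw [basic_def, Form.pull_d, h.hηR, Form.d_add, dt_d, add_zero, pr_d]

theorem Con.basic_hΦ (h : s.Con θ η) : Basic s.Φ s.hΦ η.d := Basic.d h.hηΦ

theorem sg_d_of_odd {X : Type*} {D : Dif X} {w : Form D} (hw : w.sg = -w) : w.d.sg = w.d := by
  have h1 := Form.d_sg w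
  rw [hw, Form.d_neg] at h1
  exact (neg_injective h1).symm

/-- **the push-forward of `λ (dλ) ^ N`** -/
theorem Con.l_lam (h : s.Con θ η) (hQ : s.Q l) {μ : Form DS}
    (hμΦ : Form.pull s.Φ s.hΦ μ = pr μ + dt) (hμR : Form.pull s.R s.hR μ = pr μ + dt)
    (hμo : μ.sg = -μ) (N : ℕ) :
    l (s.I o (μ * μ.d ^ N)) = l (s.I o (η * (s.pi θ.d + η.d) ^ N)) := by
  set a : Form DS := s.pi θ + η with ha
  have had : a.d = s.pi θ.d + η.d := by
    rw [ha, Form.d_add, s.pi_d]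
  set c : Form DS := s.pi θ.d + η.d with hc
  set τ : Form DS := μ - a with hτ
  have hμa : μ = a + τ := by rw [hτ]; abel
  have hθo' : (s.pi θ).sg = -s.pi θ := by
    rw [← s.pi_sg, h.hθo, s.pi_neg]
  have hao : a.sg = -a := by rw [ha, Form.sg_add, hθo', h.hηo]; abel
  have hτo : τ.sg = -τ := by rw [hτ, Form.sg_sub, hμo, hao]; abel
  have hce : c.sg = c := by rw [← had]; exact sg_d_of_odd hao
  have hcd : c.d = 0 := by rw [← had]; exact Form.d_d a
  have hε : τ.d.sg = τ.d := sg_d_of_odd hτo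
  -- basicness
  have bR : Basic s.R s.hR c := Basic.add (s.basic_R_pi _) h.basic_hR
  have bΦ : Basic s.Φ s.hΦ c := Basic.add (s.basic_Φ_pi h.basic_e) h.basic_hΦ
  have tR : Basic s.R s.hR τ := by
    rw [basic_def, hτ, pull_sub, hμR, ha, pull_add, s.basic_R_pi θ, h.hηR, pr_sub, pr_add]
    abel
  have tΦ : Basic s.Φ s.hΦ τ := by
    rw [basic_def, hτ, pull_sub, hμΦ, ha, pull_add, s.contact_pi h.hθ, h.hηΦ, pr_sub, pr_add]
    abel
  set ε : Form DS := τ.d with hεd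
  have eR : Basic s.R s.hR ε := Basic.d tR
  have eΦ : Basic s.Φ s.hΦ ε := Basic.d tΦ
  set P : Form DS := ∑ i ∈ Finset.range N, (c + ε) ^ i * c ^ (N - 1 - i) with hP
  have hcomm : Commute (c + ε) c := (Form.mul_comm_of_even (by rw [Form.sg_add, hce, hε]) c)
  have hpow : (c + ε) ^ N = c ^ N + ε * P := by
    have h1 := hcomm.mul_geom_sum₂ N
    rw [add_sub_cancel_left] at h1
    rw [hP, h1]
    abel
  have PR : Basic s.R s.hR P := Basic.sum _ fun i _ =>
    Basic.mul (Basic.pow (Basic.add bR eR) _) (Basic.pow bR _)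
  have PΦ : Basic s.Φ s.hΦ P := Basic.sum _ fun i _ =>
    Basic.mul (Basic.pow (Basic.add bΦ eΦ) _) (Basic.pow bΦ _)
  have hsum : (c + ε).sg = c + ε := by rw [Form.sg_add, hce, hε]
  have hsumd : (c + ε).d = 0 := by rw [Form.d_add, hcd, hεd, Form.d_d, add_zero]
  have hPd : P.d = 0 := by
    rw [hP]
    refine (map_sum Form.dL _ _).trans (Finset.sum_eq_zero fun i _ => ?_)
    have k1 : ∀ {w : Form DS}, w.sg = w → w.d = 0 → ∀ n : ℕ, (w ^ n).d = 0 := by
      intro w hw hwd n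
      induction n with
      | zero => rw [pow_zero, Form.d_one]
      | succ n ih => rw [pow_succ, Form.d_mul, ih, hwd, zero_mul, mul_zero, add_zero]
    change ((c + ε) ^ i * c ^ (N - 1 - i)).d = 0
    rw [Form.d_mul, k1 hsum hsumd, k1 hce hcd, zero_mul, mul_zero, add_zero]
  have hμd : μ.d = c + ε := by rw [hμa, Form.d_add, had]
  -- the expansion
  have key : μ * μ.d ^ N = η * c ^ N + s.pi θ * c ^ N + τ * (c + ε) ^ N + c * (τ * P) -
      (s.pi θ * (τ * P) + η * (τ * P)).d := by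
    have h1 : (s.pi θ * (τ * P) + η * (τ * P)).d = c * (τ * P) - a * (ε * P) := by
      rw [← add_mul, ← ha, Form.d_mul, had, hao, Form.d_mul, hPd, mul_zero, add_zero, neg_mul,
        ← sub_eq_add_neg]
    rw [h1, hμd]
    nth_rewrite 1 [hμa]
    rw [add_mul]
    nth_rewrite 1 [hpow]
    rw [mul_add]
    nth_rewrite 1 [ha]
    rw [add_mul]
    abel
  have z0 : s.I o (c ^ N) = 0 := s.I_basic o (Basic.pow bR N)
  have z1 : s.I o (s.pi θ * c ^ N) = 0 := I_pi_mul o θ z0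
  have z2 : s.I o (τ * (c + ε) ^ N) = 0 :=
    s.I_basic o (Basic.mul tR (Basic.pow (Basic.add bR eR) N))
  have z3 : s.I o (c * (τ * P)) = 0 := s.I_basic o (Basic.mul bR (Basic.mul tR PR))
  have z4 : s.I o (s.pi θ * (τ * P)) = 0 := I_pi_mul o θ (s.I_basic o (Basic.mul tR PR))
  have z5 : l (s.I o (s.pi θ * (τ * P) + η * (τ * P)).d) = 0 := by
    refine hQ.I_d o ?_
    rw [I_add, z4, zero_add]
    exact s.basic_I o (Basic.mul h.hηΦ (Basic.mul tΦ PΦ))
  rw [key, I_sub, I_add, I_add, I_add, z1, z2, z3, map_sub, z5]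
  simp

/-- `η` times the differential of a basic form -/
theorem Con.l_exact (h : s.Con θ η) (hQ : s.Q l) {γ : Form DS} (hγΦ : Basic s.Φ s.hΦ γ)
    (hγR : Basic s.R s.hR γ) : l (s.I o (η * γ.d)) = 0 := by
  have h1 : η * γ.d = η.d * γ - (η * γ).d := by
    rw [Form.d_mul, h.hηo, neg_mul]
    abel
  rw [h1, I_sub, s.I_basic o (Basic.mul h.basic_hR hγR), zero_sub, map_neg,
    hQ.I_d o (s.basic_I o (Basic.mul h.hηΦ hγΦ)), neg_zero]

end Seg

end Vale.Agent.P231.SEG
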