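import Mathlib
import Vale.Agent.P231.H649.Sard

/-!
# P231, stage 3, SEG (C): generic projections of families of injective linear maps
-/

set_option linter.unusedSectionVars false

open MeasureTheory Module Set Filter Topology
open scoped ContDiff

namespace Vale.Agent.P231.SEG

namespace Gen

variable {V : Type} [NormedAddCommGroup V] [NormedSpace ℝ V] [FiniteDimensional ℝ V]

/-- composition with a fixed linear map keeps smoothness -/
theorem contDiffOn_comp {κ κ' : Type} [Fintype κ] [Fintype κ'] {l : ℕ}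
    {T : V → (Fin l → ℂ) →L[ℂ] (κ → ℂ)} {U : Set V} (hT : ContDiffOn ℝ ∞ T U)
    (L : (κ → ℂ) →L[ℂ] (κ' → ℂ)) : ContDiffOn ℝ ∞ (fun x => L.comp (T x)) U := by
  let Φ : ((Fin l → ℂ) →L[ℂ] (κ → ℂ)) →L[ℂ] ((Fin l → ℂ) →L[ℂ] (κ' → ℂ)) :=
    ContinuousLinearMap.compL ℂ (Fin l → ℂ) (κ → ℂ) (κ' → ℂ) L
  have h := hT.continuousLinearMap_comp (Φ.restrictScalars ℝ)
  exact h

/-- evaluation is differentiable -/
theorem differentiableAt_eval {κ : Type} [Fintype κ] {l : ℕ}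
    {T : V → (Fin l → ℂ) →L[ℂ] (κ → ℂ)} {U : Set V} (hU : IsOpen U) (hT : ContDiffOn ℝ ∞ T U)
    {x : V} (hx : x ∈ U) (ξ : Fin l → ℂ) :
    DifferentiableAt ℝ (fun p : V × (Fin l → ℂ) => T p.1 p.2) (x, ξ) := by
  let R : ((Fin l → ℂ) →L[ℂ] (κ → ℂ)) →L[ℝ] ((Fin l → ℂ) →L[ℝ] (κ → ℂ)) :=
    ContinuousLinearMap.restrictScalarsL ℂ (Fin l → ℂ) (κ → ℂ) ℝ ℝ
  have h1 : DifferentiableAt ℝ T x :=
    (hT.contDiffAt (hU.mem_nhds hx)).differentiableAt (by simp)
  have h2 : DifferentiableAt ℝ (fun p : V × (Fin l → ℂ) => R (T p.1)) (x, ξ) :=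
    R.differentiableAt.comp (x, ξ) (h1.comp (x, ξ) differentiableAt_fst)
  exact h2.clm_apply differentiableAt_snd

/-- a projection with kernel a line -/
theorem exists_proj {k : ℕ} {a : Fin (k + 1) → ℂ} (ha : a ≠ 0) :
    ∃ L : (Fin (k + 1) → ℂ) →ₗ[ℂ] (Fin k → ℂ), ∀ w, L w = 0 → ∃ c : ℂ, w = c • a := by
  let S : Submodule ℂ (Fin (k + 1) → ℂ) := Submodule.span ℂ {a}
  have h1 : finrank ℂ S = 1 := finrank_span_singleton ha
  have h2 : finrank ℂ ((Fin (k + 1) → ℂ) ⧸ S) = k := by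
    have h3 := Submodule.finrank_quotient_add_finrank S
    rw [h1, finrank_fin_fun] at h3
    omega
  let e : ((Fin (k + 1) → ℂ) ⧸ S) ≃ₗ[ℂ] (Fin k → ℂ) :=
    LinearEquiv.ofFinrankEq _ _ (by rw [h2, finrank_fin_fun])
  refine ⟨e.toLinearMap ∘ₗ S.mkQ, fun w hw => ?_⟩
  have h4 : S.mkQ w = 0 := e.map_eq_zero_iff.1 hw
  rw [Submodule.mkQ_apply, Submodule.Quotient.mk_eq_zero] at h4
  obtain ⟨c, hc⟩ := Submodule.mem_span_singleton.1 h4
  exact ⟨c, hc.symm⟩

theorem exists_generic_fin {l n : ℕ} {U : Set V} (hU : IsOpen U) {A : Set V} (hAU : A ⊆ U)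
    (hA : A.Nonempty) (hdim : finrank ℝ V + 2 * l < 2 * (n + 1)) (k : ℕ) :
    ∀ T : V → (Fin l → ℂ) →L[ℂ] (Fin k → ℂ), ContDiffOn ℝ ∞ T U →
      (∀ x ∈ A, Function.Injective (T x)) →
      ∃ L : (Fin k → ℂ) →ₗ[ℂ] (Fin n → ℂ), ∀ x ∈ A, Function.Injective fun ξ => L (T x ξ) := by
  induction k with
  | zero =>
    intro T hT hinj
    refine ⟨0, fun x hx ξ ζ _ => hinj x hx (Subsingleton.elim _ _)⟩
  | succ k ih =>
    intro T hT hinj
    by_cases hkn : k + 1 ≤ n
    · -- embed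
      obtain ⟨L, hL⟩ : ∃ L : (Fin (k + 1) → ℂ) →ₗ[ℂ] (Fin n → ℂ), Function.Injective L := by
        let p : (Fin n → ℂ) →ₗ[ℂ] (Fin (k + 1) → ℂ) := LinearMap.funLeft ℂ ℂ (Fin.castLE hkn)
        have hp : Function.Surjective p :=
          LinearMap.funLeft_surjective_of_injective _ _ _ (Fin.castLE_injective hkn)
        obtain ⟨g, hg⟩ := p.exists_rightInverse_of_surjective (LinearMap.range_eq_top.2 hp)
        refine ⟨g, fun a b hab => ?_⟩
        have h1 := LinearMap.congr_fun hg a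
        have h2 := LinearMap.congr_fun hg b
        simp only [LinearMap.comp_apply, LinearMap.id_apply] at h1 h2
        rw [← h1, ← h2, hab]
      exact ⟨L, fun x hx => hL.comp (hinj x hx)⟩
    · -- a missed direction
      push Not at hkn
      let g : V × (Fin l → ℂ) → (Fin (k + 1) → ℂ) := fun p => T p.1 p.2
      have hfr1 : finrank ℝ (V × (Fin l → ℂ)) = finrank ℝ V + 2 * l := by
        rw [finrank_prod, finrank_pi_fintype]
        simp [Complex.finrank_real_complex]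
        ring
      have hfr2 : finrank ℝ (Fin (k + 1) → ℂ) = 2 * (k + 1) := by
        rw [finrank_pi_fintype]
        simp [Complex.finrank_real_complex]
        ring
      have hlt : finrank ℝ (V × (Fin l → ℂ)) < finrank ℝ (Fin (k + 1) → ℂ) := by
        rw [hfr1, hfr2]; omega
      have h1 : Measure.addHaar (g '' (A ×ˢ univ)) = 0 := by
        refine H649.sard_ker (Measure.addHaar : Measure (Fin (k + 1) → ℂ)) hlt.le ?_
          (fun s _ => Or.inl hlt)
        rintro ⟨x, ξ⟩ ⟨hx, -⟩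
        exact differentiableAt_eval hU hT (hAU hx) ξ
      have h2 : ∃ a, a ∉ g '' (A ×ˢ univ) := by
        by_contra hcon
        push Not at hcon
        have h3 : g '' (A ×ˢ univ) = univ := Set.eq_univ_of_forall hcon
        rw [h3] at h1
        exact (isOpen_univ.measure_pos (Measure.addHaar : Measure (Fin (k + 1) → ℂ))
          univ_nonempty).ne' h1
      obtain ⟨a, ha⟩ := h2
      have ha0 : a ≠ 0 := by
        rintro rfl
        obtain ⟨x, hx⟩ := hA
        exact ha ⟨(x, 0), ⟨hx, mem_univ _⟩, map_zero _⟩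
      obtain ⟨L, hL⟩ := exists_proj ha0
      let Lc : (Fin (k + 1) → ℂ) →L[ℂ] (Fin k → ℂ) := LinearMap.toContinuousLinearMap L
      obtain ⟨M, hM⟩ := ih (fun x => Lc.comp (T x)) (contDiffOn_comp hT Lc) (fun x hx => by
        have h4 : ∀ ξ, L (T x ξ) = 0 → ξ = 0 := by
          intro ξ hξ
          obtain ⟨c, hc⟩ := hL _ hξ
          by_cases hc0 : c = 0
          · rw [hc0, zero_smul] at hc
            exact hinj x hx (by rw [hc, map_zero])
          · exfalso
            refine ha ⟨(x, c⁻¹ • ξ), ⟨hx, mem_univ _⟩, ?_⟩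
            change T x (c⁻¹ • ξ) = a
            rw [map_smul, hc, smul_smul, inv_mul_cancel₀ hc0, one_smul]
        intro ξ ζ h
        have h5 : L (T x (ξ - ζ)) = 0 := by
          rw [map_sub, map_sub]
          exact sub_eq_zero.2 h
        exact sub_eq_zero.1 (h4 _ h5))
      exact ⟨M ∘ₗ L, hM⟩

end Gen

open Gen in
theorem exists_generic {V : Type} [NormedAddCommGroup V] [NormedSpace ℝ V]
    [FiniteDimensional ℝ V] {κ : Type} [Fintype κ] {l n : ℕ}
    {T : V → (Fin l → ℂ) →L[ℂ] (κ → ℂ)} {U : Set V} (hU : IsOpen U) (hT : ContDiffOn ℝ ∞ T U)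
    {A : Set V} (hAU : A ⊆ U) (hinj : ∀ x ∈ A, Function.Injective (T x))
    (hdim : finrank ℝ V + 2 * l < 2 * (n + 1)) :
    ∃ L : (κ → ℂ) →ₗ[ℂ] (Fin n → ℂ), ∀ x ∈ A, Function.Injective fun ξ => L (T x ξ) := by
  rcases A.eq_empty_or_nonempty with hA | hA
  · exact ⟨0, fun x hx => by rw [hA] at hx; exact hx.elim⟩
  let e : κ ≃ Fin (Fintype.card κ) := Fintype.equivFin κ
  let E : (κ → ℂ) ≃ₗ[ℂ] (Fin (Fintype.card κ) → ℂ) := LinearEquiv.funCongrLeft ℂ ℂ e.symm
  let Ec : (κ → ℂ) →L[ℂ] (Fin (Fintype.card κ) → ℂ) :=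
    LinearMap.toContinuousLinearMap E.toLinearMap
  obtain ⟨L, hL⟩ := exists_generic_fin hU hAU hA hdim (Fintype.card κ) (fun x => Ec.comp (T x))
    (contDiffOn_comp hT Ec) (fun x hx => E.injective.comp (hinj x hx))
  exact ⟨L ∘ₗ E.toLinearMap, hL⟩

end Vale.Agent.P231.SEG
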