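import Vale.Agent.P231.SEG.Push
import Vale.Agent.P231.XC.Rot
import Vale.Agent.P231.XC.Psi

/-!
# P231, stage 3, block SEG: the sphere bundle `S(ξ ⊗ ℂ)` of a flow-invariant field of projections
as an instance of `Seg`, with the contact data, the fibre integrals and the relation of
Grothendieck
-/

set_option linter.unusedSectionVars false
set_option linter.unusedVariables false

open MeasureTheory Matrix Set Filter Topology Module
open scoped ContDiff

namespace Vale.Agent.P231.XC.Alt257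

open Vale.Agent.P231 Vale.Agent.P231.XC Fm W H584 ChW X3 SEG

noncomputable section

/-! ### the odd classes of a real projection -/

/-- Newton's recursion for a sequence without odd power sums -/
theorem newton_odd {K R : Type*} [Field K] [CharZero K] [Ring R] [Algebra K R] {s e : ℕ → R}
    (h : NewtonRec K s e) (hs : ∀ k, Odd k → s k = 0) {k : ℕ} (hk : Odd k) : e k = 0 := by
  induction k using Nat.strong_induction_on with
  | _ k ih =>
    obtain ⟨j, rfl⟩ : ∃ j, k = j + 1 := ⟨k - 1, by obtain ⟨i, rfl⟩ := hk; omega⟩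
    have h1 := h.2 j
    have h2 : ∑ i ∈ Finset.range (j + 1), (-1 : K) ^ i • (s (i + 1) * e (j - i)) = 0 := by
      refine Finset.sum_eq_zero fun i hi => ?_
      have hi' : i ≤ j := Nat.lt_succ_iff.1 (Finset.mem_range.1 hi)
      rcases Nat.even_or_odd (i + 1) with h3 | h3
      · have h4 : Odd (j - i) := by
          obtain ⟨a, ha⟩ := hk
          obtain ⟨b, hb⟩ := h3
          exact ⟨a - b, by omega⟩
        rw [ih (j - i) (by omega) h4, mul_zero, smul_zero]
      · rw [hs _ h3, zero_mul, smul_zero]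
    rw [h2] at h1
    have h5 : ((j : K) + 1) ≠ 0 := by exact_mod_cast Nat.succ_ne_zero j
    have h6 := congrArg (((j : K) + 1)⁻¹ • ·) h1
    simp only [smul_smul, inv_mul_cancel₀ h5, one_smul, smul_zero] at h6
    exact h6

variable {B : Type*} {DB : Dif B} {ι : Type} [Fintype ι] [DecidableEq ι]
  {P : B → Matrix ι ι ℝ} {l : ℕ} {φ : B × ℝ → B}

/-- the odd Chern forms of a complexified real projection vanish -/
theorem cF_odd (h : Pj DB P l) {k : ℕ} (hk : Odd k) : cF h k = 0 := by
  refine newton_odd (newtE_spec (K := ℝ)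
    (fun k => sF k (cM (fun b => cplx (P b)) (sm_cP h)))) (fun k hk => ?_) hk
  have h1 : cM (fun b => cplx (P b)) (sm_cP h) = S2T.cR P h.sm := rfl
  change sF k (cM (fun b => cplx (P b)) (sm_cP h)) = 0
  rw [h1, S2T.cR_eq]
  exact sF_real_odd _ hk

section seg

variable [NeZero l] (h : Pj DB P l) (hφ : (DB.prod (Dif.lin ℝ)).Map DB φ)
  (hinv : ∀ b t, P (φ (b, t)) = P b)

/-- **`S(ξ ⊗ ℂ)` with the lifted flow and the rotation** -/
def seg : Seg DB (dX DB P) (dFr DB P l) (Fl l) XS.b Fr.b (ev (P := P) (l := l)) where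
  bun := bun h
  φ := φ
  hφ := hφ
  Φ := lft φ hinv
  hΦ := map_lft hinv hφ
  R := rot
  hR := map_rot
  φF := frf φ hinv
  hφF := map_frf hinv hφ
  ρ := ρf l
  X := (2 * Real.pi) • Jf l
  vr := vr_ρf l
  hqφ _ _ := rfl
  hΦe f ξ t hξ := lft_ev hinv f ξ t hξ
  hRe f ξ t hξ := rot_ev f ξ t hξ
  hπΦ _ _ := rfl
  hπR _ _ := rfl

/-- the contact data -/
theorem con {θ : Form DB} (hθo : θ.sg = -θ) (hθ : Form.pull φ hφ θ = pr θ + dt) :
    (seg h hφ hinv).Con θ (et DB P) where
  hθ := hθ
  hθo := hθo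
  hηΦ := basic_et hinv hφ
  hηR := et_rot
  hηo := et_sg

end seg

section seven

variable (h : Pj DB P 7) (hφ : (DB.prod (Dif.lin ℝ)).Map DB φ)
  (hinv : ∀ b t, P (φ (b, t)) = P b)

/-- the fibre integrals -/
theorem nrm : (seg h hφ hinv).Nrm (ob 7) (et DB P) where
  top := SI_top h
  low j hj := SI_low h (j := j) (by omega)

/-- the Chern forms as elements of `BB` -/
def cBB (k : ℕ) : (seg h hφ hinv).BB :=
  ⟨cF h k, cF_even h hinv hφ k, cF_closed h hinv hφ k, cF_basic h hinv hφ k⟩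

theorem coe_cBB (k : ℕ) : ((cBB h hφ hinv k : (seg h hφ hinv).BB) : Form DB) = cF h k := rfl

/-- the relation of Grothendieck as an identity of forms -/
theorem gr_form : ∃ ρ : Form (dX DB P), (fam φ hinv hφ).B ρ ∧
    (et DB P).d ^ 7 - (Form.pull XS.b map_b (-cF h 2) * (et DB P).d ^ 5 -
      Form.pull XS.b map_b (cF h 4) * (et DB P).d ^ 3 +
      Form.pull XS.b map_b (-cF h 6) * (et DB P).d) = ρ.d := by
  obtain ⟨ρ, h1, h2⟩ := groth_form h (by norm_num) hinv hφ
  refine ⟨ρ, h1, ?_⟩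
  have c1 : cF h 1 = 0 := cF_odd h (by decide)
  have c3 : cF h 3 = 0 := cF_odd h (by decide)
  have c5 : cF h 5 = 0 := cF_odd h (by decide)
  have c7 : cF h 7 = 0 := cF_odd h (by decide)
  have c0 := cF_zero h
  have hp0 : Form.pull XS.b (map_b (DB := DB) (P := P)) (0 : Form DB) = 0 :=
    map_zero (Form.pullA XS.b map_b)
  have hp1 : Form.pull XS.b (map_b (DB := DB) (P := P)) (1 : Form DB) = 1 :=
    map_one (Form.pullA XS.b map_b)
  simp only [Finset.sum_range_succ, Finset.range_zero, Finset.sum_empty, Nat.sub_zero,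
    Nat.reduceSub, c1, c3, c5, c7, c0, hp0, hp1, mul_zero, mul_one, pow_zero, pow_one, zero_add,
    add_zero, one_mul] at h2
  have hn : ∀ w : Form DB, Form.pull XS.b (map_b (DB := DB) (P := P)) (-w) =
      -Form.pull XS.b (map_b (DB := DB) (P := P)) w := fun w =>
    map_neg (Form.pullA XS.b map_b) w
  have he : ∀ w : Form DB, w.sg = w → (Form.pull XS.b (map_b (DB := DB) (P := P)) w).sg =
      Form.pull XS.b (map_b (DB := DB) (P := P)) w := fun w hw => by
    rw [← Form.pull_sg, hw]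
  have hc : ∀ (k : ℕ) (w : Form (dX DB P)), Form.pull XS.b (map_b (DB := DB) (P := P))
      (cF h k) * w = w * Form.pull XS.b (map_b (DB := DB) (P := P)) (cF h k) := fun k w =>
    (even_comm (he _ (cF_even h hinv hφ k)) w).eq
  rw [← h2, hn, hn, neg_mul, neg_mul, hc, hc, hc]
  abel

/-- **the relation of Grothendieck** with `p₁ = -c₂`, `p₂ = c₄`, `p₃ = -c₆` -/
theorem gr {θ : Form DB} (hθo : θ.sg = -θ) (hθ : Form.pull φ hφ θ = pr θ + dt) :
    Seg.Gr (con h hφ hinv hθo hθ) (-cBB h hφ hinv 2) (cBB h hφ hinv 4) (-cBB h hφ hinv 6) := by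
  obtain ⟨ρ, h1, h2⟩ := gr_form h hφ hinv
  have hb : (seg h hφ hinv).fam.B ρ := by
    intro i
    cases i
    · exact h1 false
    · exact h1 true
  have key : (seg h hφ hinv).fam.qm ((con h hφ hinv hθo hθ).hB ^ 7) =
      (seg h hφ hinv).fam.qm ((seg h hφ hinv).piB (-cBB h hφ hinv 2) *
        (con h hφ hinv hθo hθ).hB ^ 5 - (seg h hφ hinv).piB (cBB h hφ hinv 4) *
        (con h hφ hinv hθo hθ).hB ^ 3 + (seg h hφ hinv).piB (-cBB h hφ hinv 6) *
        (con h hφ hinv hθo hθ).hB) :=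
    (seg h hφ hinv).fam.qm_eq_of hb h2
  have e1 := map_pow (seg h hφ hinv).fam.qm (con h hφ hinv hθo hθ).hB
  have e2 := map_mul (seg h hφ hinv).fam.qm
  have e3 := map_add (seg h hφ hinv).fam.qm
  have e4 := map_sub (seg h hφ hinv).fam.qm
  rw [e1, e3, e4, e2, e2, e2, e1, e1] at key
  exact key

end seven

end

end Vale.Agent.P231.XC.Alt257
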