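import Vale.Agent.P231.SEG.Deg
import Vale.Agent.P231.TW.Ang

/-!
# P231, stage 3, block SEG (7): integrality of the push-forward of `λ (dλ) ^ M`
-/

set_option linter.unusedSectionVars false
set_option linter.unusedVariables false

open MeasureTheory Set Module Filter Topology
open scoped ContDiff

namespace Vale.Agent.P231.SEG

open Vale.Agent.P231.Fm Vale.Agent.P231.W Vale.Agent.P231.H584 Vale.Agent.P231.Co
  Vale.Agent.P231.WG Vale.Agent.P231.TW Vale.Agent.P231.BX Vale.Agent.P231.EN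
  Vale.Agent.P231.EN.Std
open Vale.Agent.P231.Fm (Sm Dif Form Lam)

/-! ### the standard value -/

/-- the value of the standard integral in the given coordinates -/
theorem std_val (M : ℕ) :
    ∫ y, evalForm (dfn (u0 (M + 1)) (Lc (M + 1) y) *
      om (beta0 (xc (M + 1)) (yc (M + 1))) M (Lc (M + 1) y))
        (fun i => Lc (M + 1) (Pi.single i 1)) = (2 * Real.pi) ^ (M + 1) := by
  have h : ∀ y : Fin (2 * (M + 1)) → ℝ,
      evalForm (dfn (u0 (M + 1)) (Lc (M + 1) y) * om (beta0 (xc (M + 1)) (yc (M + 1))) M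
        (Lc (M + 1) y)) (fun i => Lc (M + 1) (Pi.single i 1)) =
      deriv chr (∑ i, y i ^ 2) *
      (2 ^ (M + 1) * (M.factorial : ℝ) * ((∑ i, y i ^ 2) ^ M)⁻¹) := by
    intro y
    by_cases hy : y = 0
    · subst hy
      have h1 : deriv chr 0 = 0 := deriv_chr_le (by norm_num)
      have h2 : dfn (u0 (M + 1)) (Lc (M + 1) 0) = 0 := by
        rw [dfn, fderiv_u0, map_zero, nsq_zero, h1, zero_smul, map_zero]
      rw [h2, zero_mul]
      have h3 : (∑ i : Fin (2 * (M + 1)), (0 : Fin (2 * (M + 1)) → ℝ) i ^ 2) = 0 := by simp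
      rw [h3, h1, zero_mul]
      simp only [evalForm_apply, map_zero]
    · have hz : Lc (M + 1) y ≠ 0 := by
        intro h
        exact hy ((Lc (M + 1)).injective (by rw [h, map_zero]))
      have hb : ∀ i, ((Pi.basisFun ℝ (Fin (2 * (M + 1)))).map (Lc (M + 1)).toLinearEquiv) i =
          Lc (M + 1) (Pi.single i 1) := by
        intro i
        rw [Basis.map_apply, Pi.basisFun_apply]
        rfl
      have key := integrand_eq (xc (M + 1)) (yc (M + 1)) (χ := chr) (n := M + 1) (by omega)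
        (nsq_pos (M + 1) hz) (contDiff_chr.differentiable (by simp) _)
        ((Pi.basisFun ℝ (Fin (2 * (M + 1)))).map (Lc (M + 1)).toLinearEquiv)
        (fun j i => by
          rw [hb, xc_Lc, Pi.single_apply, i0]
          simp only [Fin.ext_iff, eq_comm])
        (fun j i => by
          rw [hb, yc_Lc, Pi.single_apply, i1]
          simp only [Fin.ext_iff, eq_comm])
      rw [nsq_Lc, Nat.add_sub_cancel] at key
      rw [← key]
      congr 1
      funext i
      exact (hb i).symm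
  rw [integral_congr_ae (Filter.Eventually.of_forall h), density_integral M]

/-- the form `u₀ ω` -/
noncomputable def W0 (M : ℕ) (y : Cn (M + 1)) : Lam (Cn (M + 1)) :=
  u0 (M + 1) y • om (beta0 (xc (M + 1)) (yc (M + 1))) M y

/-- its differential -/
noncomputable def Om0 (M : ℕ) (y : Cn (M + 1)) : Lam (Cn (M + 1)) :=
  dfn (u0 (M + 1)) y * om (beta0 (xc (M + 1)) (yc (M + 1))) M y

variable {M : ℕ}

theorem contDiff_W0 : ContDiff ℝ ∞ (W0 M) := by
  refine contDiff_iff_contDiffAt.2 fun y => ?_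
  by_cases hy : y = 0
  · subst hy
    have h1 : W0 M =ᶠ[𝓝 0] fun _ => 0 := by
      filter_upwards [(cut_u0 (M + 1)).near] with z hz
      rw [W0, hz, zero_smul]
    exact contDiffAt_const.congr_of_eventuallyEq h1
  · exact (cut_u0 (M + 1)).smooth.contDiffAt.smul ((conn_c (M + 1)).smooth_om M hy)

theorem extd_om_zero {y : Cn (M + 1)} (hy : y ≠ 0) :
    extd (om (beta0 (xc (M + 1)) (yc (M + 1))) M) y = 0 := by
  have h1 := congrArg (fun w : Form (DZ (M + 1)) => w.val id y)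
    (omF_d (n := M + 1) (M := M) le_rfl)
  change (omF (M + 1) M).d.val id y = (0 : Form (DZ (M + 1))).val id y at h1
  have hid : ∀ {z : Cn (M + 1)}, z ≠ 0 → (DZ (M + 1)).At (id : Cn (M + 1) → Cn (M + 1)) z :=
    fun hz => ⟨Sm.of_contDiff contDiff_id _, isOpen_ne0.mem_nhds hz⟩
  rw [Form.zero_val, Form.d_val _ (hid hy)] at h1
  rw [← h1]
  refine extd_congr ?_
  filter_upwards [isOpen_ne0.mem_nhds hy] with z hz
  rw [omF_val (hid hz)]
  exact (pb_id _ z).symm

theorem extd_W0 : extd (W0 M) = Om0 M := by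
  funext y
  by_cases hy : y = 0
  · subst hy
    have h1 : W0 M =ᶠ[𝓝 0] fun _ => 0 := by
      filter_upwards [(cut_u0 (M + 1)).near] with z hz
      rw [W0, hz, zero_smul]
    have h2 : u0 (M + 1) =ᶠ[𝓝 0] fun _ => 0 := (cut_u0 (M + 1)).near
    rw [extd_congr h1, extd_const, Om0, dfn, h2.fderiv_eq, fderiv_fun_const]
    simp
  · have h1 := extd_smul (f := u0 (M + 1)) (w := om (beta0 (xc (M + 1)) (yc (M + 1))) M)
      ((cut_u0 (M + 1)).smooth.differentiable (by simp) y)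
      (((conn_c (M + 1)).smooth_om M hy).differentiableAt (by simp))
    rw [extd_om_zero hy, smul_zero, add_zero] at h1
    exact h1

theorem contDiff_Om0 : ContDiff ℝ ∞ (Om0 M) := by
  rw [← extd_W0]
  exact Form.contDiff_extd contDiff_W0

theorem compact_Om0 : HasCompactSupport (Om0 M) :=
  (cut_u0 (M + 1)).supp.comp.mul_right

theorem far_W0 : ∃ R : ℝ, ∀ y, R < ‖y‖ → W0 M y = om (beta0 (xc (M + 1)) (yc (M + 1))) M y := by
  obtain ⟨K, hK, h1⟩ := (cut_u0 (M + 1)).far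
  obtain ⟨R, hR⟩ := hK.isBounded.subset_closedBall (0 : Cn (M + 1))
  refine ⟨R, fun y hy => ?_⟩
  have h2 : y ∉ K := fun h => by
    have := hR h
    rw [mem_closedBall_zero_iff] at this
    linarith
  rw [W0, h1 y h2, one_smul]

/-- the standard integral, up to sign, in any basis -/
theorem abs_JJ_Om0 (bW : Basis (Fin (2 * (M + 1))) ℝ (Cn (M + 1))) :
    |JJ bW (Om0 M)| = (2 * Real.pi) ^ (M + 1) := by
  have h1 := JJ_pb_equiv (Pi.basisFun ℝ (Fin (2 * (M + 1)))) (Lc (M + 1)) (Om0 M)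
  have h2 : JJ (Pi.basisFun ℝ (Fin (2 * (M + 1)))) (pb (Lc (M + 1)) (Om0 M)) =
      (2 * Real.pi) ^ (M + 1) := by
    rw [← std_val M]
    unfold JJ
    have h3 : (Pi.basisFun ℝ (Fin (2 * (M + 1)))).addHaar = volume := by
      rw [← addHaarMeasure_eq_volume_pi, ← Basis.parallelepiped_basisFun, ← Basis.addHaar_def]
    rw [h3]
    refine integral_congr_ae (Eventually.of_forall fun y => ?_)
    change evalForm (pb (Lc (M + 1)) (Om0 M) y) _ = evalForm (Om0 M (Lc (M + 1) y)) _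
    rw [pb, ContinuousLinearEquiv.fderiv, evalForm_pull]
    congr 1
    funext i
    change Lc (M + 1) (Pi.basisFun ℝ (Fin (2 * (M + 1))) i) = _
    rw [Pi.basisFun_apply]
  rw [h1] at h2
  rw [abs_JJ_basis ((Pi.basisFun ℝ (Fin (2 * (M + 1)))).map (Lc (M + 1)).toLinearEquiv) bW, h2]
  exact abs_of_pos (by positivity)

theorem abs_JJ_Om0' {K : ℕ} (hK : K = 2 * (M + 1)) (bW : Basis (Fin K) ℝ (Cn (M + 1))) :
    |JJ bW (Om0 M)| = (2 * Real.pi) ^ (M + 1) := by
  subst hK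
  exact abs_JJ_Om0 bW

/-! ### the form on the model bundle -/

variable {B S Fr : Type*} {DB : Dif B} {DS : Dif S} {DF : Dif Fr}
variable {F : Type} [NormedAddCommGroup F] [InnerProductSpace ℝ F] [FiniteDimensional ℝ F]
  [MeasurableSpace F] [BorelSpace F]
variable {π : S → B} {q : Fr → B} {ev : Fr × F → S}

/-- equivariance on the model sphere bundle -/
theorem sb_equiv (s : Seg DB DS DF F π q ev) {w : Form DS}
    (hw : Form.pull s.Φ s.hΦ w = Form.pull s.R s.hR w) :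
    Form.pull (am s.φF fun _ : Fr × ℝ => ContinuousLinearMap.id ℝ F) (map_amS s.hφF rt_id)
      (Form.pull ev s.bun.hev w) =
    Form.pull (am Prod.fst fun p : Fr × ℝ => s.ρ p.2)
      (map_amS (Dif.map_fst (D := DF) (D' := Dif.lin ℝ)) (rt_snd s.vr.rt))
      (Form.pull ev s.bun.hev w) := by
  refine Form.ext_val fun E _ _ _ u x hu => ?_
  have h1 : (SB DF F).At (fun y => ((u y).1.1, (u y).2)) x :=
    ⟨⟨hu.1.1.1, hu.1.2⟩, hu.2⟩
  have h2 : (DS.prod (Dif.lin ℝ)).At (fun y => (ev ((u y).1.1, (u y).2), (u y).1.2)) x :=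
    ⟨s.bun.hev h1, hu.1.1.2⟩
  have h3 : (SB DF F).At ((am s.φF fun _ : Fr × ℝ => ContinuousLinearMap.id ℝ F) ∘ u) x :=
    map_amS s.hφF rt_id hu
  rw [pull_am_ev s.bun s.vr.rt s.hR s.hRe w hu, ← hw, Form.pull_val _ _ h2,
    Form.pull_val _ _ hu, Form.pull_val _ _ h3]
  refine w.congr (s.bun.hev h3) ?_
  filter_upwards [hu.2] with y hy
  exact (s.hΦe _ _ _ hy).symm

namespace LM

variable {s : Seg DB DS DF F π q ev} {n : ℕ} (L : LM s n)

/-- the map has no zeros -/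
theorem hG0 : DS.Map (DZ n) L.G := by
  intro E _ _ _ u x hu
  refine ⟨L.hG hu, ?_⟩
  obtain ⟨f, hf, hfu⟩ := s.bun.quo_ev.lift hu
  filter_upwards [(SB DF F).open' hf, hfu] with y hy1 hy2
  have h1 : ‖(f y).2‖ = 1 := hy1.2.self_of_nhds
  have h2 := L.low (u := fun z => (f z).1) hy1.1.1 (f y).2
  rw [h1, mul_one] at h2
  have h3 : L.P ((f y).1, (f y).2) = L.G (u y) := by
    rw [L.hPG _ _ h1]
    exact congrArg L.G hy2
  rw [h3] at h2
  change L.G (u y) ≠ 0
  intro h4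
  rw [h4, norm_zero] at h2
  exact absurd h2 (not_le.2 L.hc)

/-- the contact form -/
noncomputable def mu : Form DS := (2 * Real.pi)⁻¹ • Form.pull L.G L.hG0 (bet n)

theorem mu_sg : L.mu.sg = -L.mu := by
  rw [mu, Form.sg_smul, ← Form.pull_sg, bet_sg]
  have h1 : Form.pull L.G L.hG0 (-bet n) = -Form.pull L.G L.hG0 (bet n) :=
    map_neg (Form.pullA L.G L.hG0) (bet n)
  rw [h1, smul_neg]

theorem pull_hop {Ψ : S × ℝ → S} (hΨ : (DS.prod (Dif.lin ℝ)).Map DS Ψ)
    (h : ∀ x t, L.G (Ψ (x, t)) = X3.Cor.ph (2 * Real.pi * t) • L.G x) :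
    Form.pull Ψ hΨ L.mu = pr L.mu + dt := by
  have k1 : (DS.prod (Dif.lin ℝ)).Map (DZ n) (fun p : S × ℝ => L.G (Ψ p)) :=
    fun hu => L.hG0 (hΨ hu)
  have k2 : (DS.prod (Dif.lin ℝ)).Map ((DZ n).prod (Dif.lin ℝ)) (fun p : S × ℝ => (L.G p.1, p.2)) :=
    map_cyl L.hG0
  have k3 : (DS.prod (Dif.lin ℝ)).Map (DZ n) (fun p : S × ℝ => L.G p.1) :=
    fun hu => L.hG0 (Dif.map_fst hu)
  have e1 : Form.pull Ψ hΨ (Form.pull L.G L.hG0 (bet n)) =
      Form.pull (fun p : S × ℝ => (L.G p.1, p.2)) k2 (Form.pull hp map_hp (bet n)) :=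
    (pull_pull (k := fun p : S × ℝ => L.G (Ψ p)) hΨ L.hG0 k1 (fun p => rfl) (bet n)).trans
      (pull_pull (k := fun p : S × ℝ => L.G (Ψ p)) k2 map_hp k1 (fun p => (h p.1 p.2).symm)
        (bet n)).symm
  have e2 : Form.pull (fun p : S × ℝ => (L.G p.1, p.2)) k2 (pr (bet n)) =
      pr (Form.pull L.G L.hG0 (bet n)) :=
    (pull_pull (k := fun p : S × ℝ => L.G p.1) k2 Dif.map_fst k3 (fun p => rfl) (bet n)).trans
      (pull_pull (k := fun p : S × ℝ => L.G p.1) Dif.map_fst L.hG0 k3 (fun p => rfl) (bet n)).symm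
  have e3 : Form.pull (fun p : S × ℝ => (L.G p.1, p.2)) k2 (dt (D := DZ n)) = dt := by
    have j1 : ((DZ n).prod (Dif.lin ℝ)).Map (Dif.lin ℝ) (Prod.snd : Cn n × ℝ → ℝ) := Dif.map_snd
    have j2 : (DS.prod (Dif.lin ℝ)).Map (Dif.lin ℝ) (Prod.snd : S × ℝ → ℝ) := Dif.map_snd
    have j4 : Form.pull (fun p : S × ℝ => (L.G p.1, p.2)) k2 (Form.fn _ j1) = Form.fn _ j2 := by
      refine Form.ext_val fun E _ _ _ u x hu => ?_
      rw [Form.pull_val _ _ hu, Form.fn_val _ j2 hu, Form.fn_val _ j1 (k2 hu)]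
      rfl
    exact (Form.pull_d _ k2 (Form.fn _ j1)).trans (congrArg Form.d j4)
  rw [mu, Co.pull_smul, e1, pull_hp_bet, Co.pull_add, Co.pull_smul, e2, e3, smul_add, smul_smul,
    inv_mul_cancel₀ (by positivity), one_smul, pr_smul]

theorem mu_Φ : Form.pull s.Φ s.hΦ L.mu = pr L.mu + dt := L.pull_hop s.hΦ L.eqΦ

theorem mu_R : Form.pull s.R s.hR L.mu = pr L.mu + dt := L.pull_hop s.hR L.eqR

theorem mu_pow (M : ℕ) : L.mu * L.mu.d ^ M =
    ((2 * Real.pi)⁻¹ ^ (M + 1)) • Form.pull L.G L.hG0 (omF n M) := by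
  have h1 : Form.pull L.G L.hG0 (omF n M) =
      Form.pull L.G L.hG0 (bet n) * (Form.pull L.G L.hG0 (bet n)).d ^ M := by
    rw [omF, ← Form.pull_d]
    have h2 := map_mul (Form.pullA L.G L.hG0) (bet n) ((bet n).d ^ M)
    rw [map_pow] at h2
    exact h2
  rw [h1, mu, Form.d_smul, smul_pow, smul_mul_smul_comm, pow_succ']

section Main

variable {M : ℕ} (L : LM s (M + 1))

/-- the pull back of `β (dβ) ^ M` -/
noncomputable def omS : Form DS := Form.pull L.G L.hG0 (omF (M + 1) M)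

theorem omS_d : L.omS.d = 0 := by
  rw [omS, ← Form.pull_d L.G L.hG0, omF_d le_rfl]
  exact map_zero (Form.pullA L.G L.hG0)

theorem omS_eqv : Form.pull s.Φ s.hΦ L.omS = Form.pull s.R s.hR L.omS := by
  have k1 : (DS.prod (Dif.lin ℝ)).Map (DZ (M + 1)) (fun p : S × ℝ => L.G (s.Φ p)) :=
    fun hu => L.hG0 (s.hΦ hu)
  exact (pull_pull (k := fun p : S × ℝ => L.G (s.Φ p)) s.hΦ L.hG0 k1 (fun p => rfl) _).trans
    (pull_pull (k := fun p : S × ℝ => L.G (s.Φ p)) s.hR L.hG0 k1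
      (fun p => (L.eqR p.1 p.2).trans (L.eqΦ p.1 p.2).symm) _).symm

/-- the form on the model sphere bundle -/
noncomputable def sg : Form (SB DF F) := Form.pull ev s.bun.hev L.omS

theorem sg_d : L.sg.d = 0 := by
  rw [sg, ← Form.pull_d ev s.bun.hev, omS_d]
  exact map_zero (Form.pullA ev s.bun.hev)

/-- the form `u₀ ω` on the model bundle -/
noncomputable def w1 : Form (D1 DF F) := Form.pull L.P L.hP (Form.ofLin (W0 M) contDiff_W0)

theorem w1_d : L.w1.d = Form.pull L.P L.hP (Form.ofLin (Om0 M) contDiff_Om0) := by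
  rw [w1, ← Form.pull_d L.P L.hP, Form.d_ofLin]
  congr 1
  simp only [extd_W0]

/-- the correction -/
noncomputable def ka : Form (D1 DF F) := L.w1 - Co.ext L.sg

theorem w1_d_eq : L.w1.d = Co.dx L.sg + L.ka.d := by
  have h1 : L.w1 = Co.ext L.sg + L.ka := by rw [ka]; abel
  have h2 : (Co.ext L.sg).d = Co.dx L.sg := by
    rw [Co.ext_d, sg_d]
    have h3 : Co.ext (0 : Form (SB DF F)) = 0 := by rw [Co.ext, Co.pull_zero, Form.mx_zero]
    rw [h3, add_zero]
  nth_rewrite 1 [h1]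
  rw [Form.d_add, h2]

theorem exists_vc_ka : ∃ R, 1 ≤ R ∧ Vc R L.ka := by
  obtain ⟨R, hR⟩ := far_W0 (M := M)
  refine ⟨max 1 (R / L.c), le_max_left _ _, ⟨fun {E} _ _ _ {u x} hu hx => ?_⟩⟩
  have hx' : max 1 (R / L.c) < ‖(u x).2‖ := hx
  have hx1 : 1 < ‖(u x).2‖ := (le_max_left _ _).trans_lt hx'
  have hx2 : R / L.c < ‖(u x).2‖ := (le_max_right _ _).trans_lt hx'
  rw [div_lt_iff₀ L.hc, mul_comm] at hx2
  have hlow := L.low (u := fun y => (u y).1) (x := x) hu.1 (u x).2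
  have h0 : (u x).2 ≠ 0 := fun h => by
    rw [h, norm_zero] at hx1
    linarith
  have hPB : (PB DF F).At u x := ⟨hu, (Sm.continuousAt (g := fun y => (u y).2) hu.2).eventually_ne h0⟩
  have hS : (SB DF F).At (nrm ∘ u) x := map_nrm hPB
  have e1 : L.w1.val u x = (omF (M + 1) M).val (L.P ∘ u) x := by
    have h1 : (DZ (M + 1)).At (L.P ∘ u) x := by
      refine ⟨L.hP hu, ?_⟩
      have h2 : L.P (u x) ≠ 0 := fun h => by
        rw [Prod.mk.eta, h, norm_zero] at hlow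
        have := mul_pos L.hc (norm_pos_iff.2 h0)
        linarith
      exact (Sm.continuousAt (g := L.P ∘ u) (L.hP hu)).eventually_ne h2
    rw [w1, Form.pull_val L.hP _ hu, Form.ofLin_val _ _ (L.hP hu), omF_val h1]
    simp only [pb]
    congr 1
    refine hR _ (hx2.trans_le ?_)
    exact hlow
  have e2 : (Co.ext L.sg).val u x = (omF (M + 1) M).val (L.G ∘ ev ∘ nrm ∘ u) x := by
    rw [Co.ext, Form.mx_val, chf, Form.fn_val _ _ hu, chi_eq_one hx1.le, map_one, one_mul,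
      Form.pull_val map_nrm _ hPB, sg, Form.pull_val s.bun.hev _ hS, omS,
      Form.pull_val L.hG0 _ (s.bun.hev hS)]
  have hc : Sm (fun y => ‖(u y).2‖⁻¹) x := by
    filter_upwards [(show Sm (fun y => (u y).2) x from hu.2),
      (Sm.continuousAt (g := fun y => (u y).2) hu.2).eventually_ne h0] with y hy1 hy2
    exact (hy1.norm ℝ hy2).inv (norm_ne_zero_iff.2 hy2)
  have h1 : (DZ (M + 1)).At (L.P ∘ u) x := by
    refine ⟨L.hP hu, ?_⟩
    have h2 : L.P (u x) ≠ 0 := fun h => by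
      rw [Prod.mk.eta, h, norm_zero] at hlow
      have := mul_pos L.hc (norm_pos_iff.2 h0)
      linarith
    exact (Sm.continuousAt (g := L.P ∘ u) (L.hP hu)).eventually_ne h2
  have e3 : (omF (M + 1) M).val (L.G ∘ ev ∘ nrm ∘ u) x = (omF (M + 1) M).val (L.P ∘ u) x := by
    rw [← omF_real h1 hc (inv_ne_zero (norm_ne_zero_iff.2 h0))]
    refine (omF (M + 1) M).congr (L.hG0 (s.bun.hev hS)) ?_
    filter_upwards [(Sm.continuousAt (g := fun y => (u y).2) hu.2).eventually_ne h0] with y hy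
    have hy' : (u y).2 ≠ 0 := hy
    change L.G (ev ((u y).1, ‖(u y).2‖⁻¹ • (u y).2)) = ‖(u y).2‖⁻¹ • L.P (u y)
    have h4 : L.P (u y) = ‖(u y).2‖ • L.G (ev ((u y).1, ‖(u y).2‖⁻¹ • (u y).2)) :=
      L.P_eq (u y).1 hy'
    rw [h4, smul_smul, inv_mul_cancel₀ (norm_ne_zero_iff.2 hy'), one_smul]
  rw [ka, Form.sub_val, e1, e2, e3, sub_self]

theorem invF_ka : InvF q ev L.ka := by
  refine InvF.sub (L.invF_pull _) ⟨?_⟩
  have h1 := am_ext (map_gs (DF := DF) (q := q) (ev := ev)) rt_gg L.sg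
  have h2 := am_ext (map_gt (DF := DF) (q := q) (ev := ev)) rt_id L.sg
  have e := (s.bun.invS_pull L.omS).eq
  change Form.pull (am _ _) _ L.sg = Form.pull (am _ _) _ L.sg at e
  rw [e, ← h2] at h1
  exact h1

theorem equiv_ka :
    Form.pull (fun p : (Fr × ℝ) × F => (s.φF p.1, p.2)) (map_prodF s.hφF) L.ka =
      Form.pull (am Prod.fst fun p : Fr × ℝ => s.ρ p.2)
        (map_am (Dif.map_fst (D := DF) (D' := Dif.lin ℝ)) (rt_snd s.vr.rt)) L.ka := by
  rw [ka, Co.pull_sub, Co.pull_sub, w1, L.equiv_pull]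
  congr 1
  have h1 := am_ext s.hφF (rt_id (F := F)) L.sg
  have e := sb_equiv s L.omS_eqv
  change Form.pull (am s.φF fun _ : Fr × ℝ => ContinuousLinearMap.id ℝ F) _ L.sg =
    Form.pull (am Prod.fst fun p : Fr × ℝ => s.ρ p.2) _ L.sg at e
  rw [e] at h1
  exact h1.trans (am_ext (Dif.map_fst (D := DF) (D' := Dif.lin ℝ)) (rt_snd s.vr.rt) L.sg).symm

variable {V : Type} [NormedAddCommGroup V] [NormedSpace ℝ V] [FiniteDimensional ℝ V]
  [MeasurableSpace V] [BorelSpace V] {N : ℕ} {b : Basis (Fin N) ℝ V} {A U : Set V}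
  {G : V → B} {f : V → Fr} {m : ℕ} (o : OrthonormalBasis (Fin m) ℝ F)

/-- **the push-forward of `μ (dμ) ^ M` over a closed box is an integer** -/
theorem exists_int (hB : Bx s b A U G f) (hdim : m + N = 2 * (M + 1)) {l : Form DB →ₗ[ℝ] ℝ}
    (hl : ∀ w, l w = JD b A (w.val G)) : ∃ k : ℤ, l (s.I o (L.mu * L.mu.d ^ M)) = k := by
  have hfin : finrank ℝ (Cn (M + 1)) = m + N := by
    rw [finrank_real_of_complex, hdim]
    simp
  let bW : Basis (Fin (m + N)) ℝ (Cn (M + 1)) := Module.finBasisOfFinrankEq ℝ (Cn (M + 1)) hfin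
  obtain ⟨k, hk⟩ := L.exists_deg (o := o) (by omega) hB bW
  obtain ⟨R, hR1, hR⟩ := L.exists_vc_ka
  obtain ⟨a, ha⟩ := exists_FI o s.bun L.invF_ka hR
  have hab : Basic s.φ s.hφ a := ha.basic s hR L.equiv_ka
  have h1 : FI o s.bun (Co.dx L.sg) (s.bun.SI o L.omS) := FI_dx s.bun L.omS
  have hRd : Vc R L.ka.d := hR.d (isO_norm R)
  have h2 : FI o s.bun L.w1.d (s.bun.SI o L.omS + (-1 : ℝ) ^ m • a.d) := by
    rw [L.w1_d_eq]
    exact FI.add (vc_dx _) hRd h1 (ha.d hR)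
  have hv : Vc R L.w1.d := by
    rw [L.w1_d_eq]
    refine ⟨fun {E} _ _ _ {u x} hu hx => ?_⟩
    rw [Form.add_val, hRd.out hu hx, (vc_dx L.sg).out hu (lt_of_le_of_lt hR1 hx), add_zero]
  have h3 := JD_FI b hB.cpt (fun x hx => hB.frm x (hB.sub hx)) (fun x hx => hB.bas x (hB.sub hx))
    hv h2
  rw [L.w1_d, hk _ contDiff_Om0 compact_Om0, ← hl, map_add, map_smul, hl a.d, hB.Q a hab,
    smul_zero, add_zero] at h3
  have h4 : l (s.I o (L.mu * L.mu.d ^ M)) = (2 * Real.pi)⁻¹ ^ (M + 1) * (k * JJ bW (Om0 M)) := by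
    rw [L.mu_pow, ← h3]
    change l (s.bun.SI o _) = _
    rw [s.bun.SI_smul, map_smul, smul_eq_mul]
    rfl
  have h5 : |JJ bW (Om0 M)| = (2 * Real.pi) ^ (M + 1) := abs_JJ_Om0' hdim bW
  have h6 : (2 * Real.pi)⁻¹ ^ (M + 1) * (2 * Real.pi) ^ (M + 1) = 1 := by
    rw [← mul_pow, inv_mul_cancel₀ (by positivity), one_pow]
  rcases abs_choice (JJ bW (Om0 M)) with h7 | h7
  · refine ⟨k, ?_⟩
    rw [h4, ← h7, h5]
    linear_combination (k : ℝ) * h6
  · refine ⟨-k, ?_⟩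
    have h8 : JJ bW (Om0 M) = -(2 * Real.pi) ^ (M + 1) := by rw [← h5, h7, neg_neg]
    rw [h4, h8]
    push_cast
    linear_combination (-k : ℝ) * h6

end Main

end LM

end Vale.Agent.P231.SEG
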