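import Vale.Agent.P231.SEG.Int
import Vale.Agent.P231.XC.Seg

/-!
# P231, stage 3, block SEG (8): equivariant maps from functions of weight one
-/

set_option linter.unusedSectionVars false
set_option linter.unusedVariables false

open MeasureTheory Matrix Set Module Filter Topology
open scoped ContDiff

namespace Vale.Agent.P231.SEG

open Vale.Agent.P231.Fm Vale.Agent.P231.W Vale.Agent.P231.H584 Vale.Agent.P231.Co
  Vale.Agent.P231.WG Vale.Agent.P231.X3 Vale.Agent.P231.ChW Vale.Agent.P231.XC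
open Vale.Agent.P231.Fm (Sm Dif Form Lam)

noncomputable section

variable {κ ι : Type} [Fintype κ] [Fintype ι] [DecidableEq ι]

/-- the tensor product of two vectors -/
def tn (u : κ → ℂ) (z : ι → ℂ) : κ × ι → ℂ := fun p => u p.1 * z p.2

theorem tn_smul_left (c : ℂ) (u : κ → ℂ) (z : ι → ℂ) : tn (c • u) z = c • tn u z := by
  funext p
  simp only [tn, Pi.smul_apply, smul_eq_mul, mul_assoc]

theorem tn_smul_right (c : ℂ) (u : κ → ℂ) (z : ι → ℂ) : tn u (c • z) = c • tn u z := by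
  funext p
  simp only [tn, Pi.smul_apply, smul_eq_mul]
  ring

theorem tn_add_right (u : κ → ℂ) (z z' : ι → ℂ) : tn u (z + z') = tn u z + tn u z' := by
  funext p
  simp only [tn, Pi.add_apply, mul_add]

theorem tn_ne_zero {u : κ → ℂ} {z : ι → ℂ} (hu : u ≠ 0) (hz : z ≠ 0) : tn u z ≠ 0 := by
  obtain ⟨i, hi⟩ := Function.ne_iff.1 hu
  obtain ⟨j, hj⟩ := Function.ne_iff.1 hz
  exact Function.ne_iff.2 ⟨(i, j), mul_ne_zero hi hj⟩

theorem contDiff_tn : ContDiff ℝ ∞ fun p : (κ → ℂ) × (ι → ℂ) => tn p.1 p.2 := by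
  unfold tn
  refine contDiff_pi.2 fun p => ?_
  exact (((ContinuousLinearMap.proj (R := ℝ) (φ := fun _ : κ => ℂ) p.1).contDiff.comp
    contDiff_fst).mul ((ContinuousLinearMap.proj (R := ℝ) (φ := fun _ : ι => ℂ) p.2).contDiff.comp
      contDiff_snd))

variable {n : ℕ} (Λ : (κ × ι → ℂ) →ₗ[ℂ] (Fin n → ℂ))

/-- the map `(u, z) ↦ Λ (u ⊗ z)` -/
def lt (u : κ → ℂ) (z : ι → ℂ) : Cn n := Λ (tn u z)

theorem contDiff_lt : ContDiff ℝ ∞ fun p : (κ → ℂ) × (ι → ℂ) => lt Λ p.1 p.2 :=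
  ((Λ.restrictScalars ℝ).toContinuousLinearMap.contDiff (n := ∞)).comp contDiff_tn

theorem lt_smul_left (c : ℂ) (u : κ → ℂ) (z : ι → ℂ) : lt Λ (c • u) z = c • lt Λ u z := by
  rw [lt, tn_smul_left, map_smul]
  rfl

theorem lt_smul_right (c : ℂ) (u : κ → ℂ) (z : ι → ℂ) : lt Λ u (c • z) = c • lt Λ u z := by
  rw [lt, tn_smul_right, map_smul]
  rfl

theorem real_smul_eq {m : Type*} (c : ℝ) (z : m → ℂ) : c • z = (c : ℂ) • z := by
  funext j
  simp

theorem lt_real_right (c : ℝ) (u : κ → ℂ) (z : ι → ℂ) : lt Λ u (c • z) = c • lt Λ u z := by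
  rw [real_smul_eq, lt_smul_right, real_smul_eq c (lt Λ u z)]

variable {B : Type*} {DB : Dif B} {P : B → Matrix ι ι ℝ} {l : ℕ}
  {φ : B × ℝ → B} {w : B → κ → ℂ} {c : ℝ}

theorem cmb_smul_c (f : Fin l → ι → ℝ) (r : ℝ) (a : Fin l → ℂ) :
    cmb f (r • a) = r • cmb f a := by
  funext i
  simp only [cmb, Pi.smul_apply, Complex.real_smul, Finset.mul_sum, mul_assoc]

/-- the lower bound -/
def Lw (DB : Dif B) (P : B → Matrix ι ι ℝ) (w : B → κ → ℂ) (Λ : (κ × ι → ℂ) →ₗ[ℂ] (Fin n → ℂ))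
    (c : ℝ) : Prop :=
  ∀ {E : Type} [NormedAddCommGroup E] [NormedSpace ℝ E] [FiniteDimensional ℝ E] {u : E → B}
    {x : E}, DB.At u x → ∀ z : ι → ℂ, cplx (P (u x)) *ᵥ z = z → Uni z → c ≤ ‖lt Λ (w (u x)) z‖

variable [NeZero l] (h : Pj DB P l) (hP : ∀ b t, P (φ (b, t)) = P b)
  (hφ : (DB.prod (Dif.lin ℝ)).Map DB φ)

/-- the equivariant map given by functions of weight one -/
def LMx (hw : DB.Map (Dif.lin (κ → ℂ)) w)
    (hwe : ∀ b t, w (φ (b, t)) = Cor.ph (2 * Real.pi * t) • w b) (hc : 0 < c)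
    (hlow : Lw DB P w Λ c) : LM (XC.seg h hP hφ) n where
  G x := lt Λ (w x.b) x.z
  hG := fun {E} _ _ _ {u x} hu => by
    have h1 : Sm (fun y => w (u y).b) x := hw (map_b hu)
    have h2 : Sm (fun y => (u y).z) x := map_z hu
    exact Sm.comp (f := fun p : (κ → ℂ) × (ι → ℂ) => lt Λ p.1 p.2)
      (Sm.of_contDiff (contDiff_lt Λ) _) (h1.prodMk h2)
  P p := lt Λ (w p.1.b) (cmb p.1.f (cz l p.2))
  hP := fun {E} _ _ _ {u x} hu => by
    have h1 : Sm (fun y => w (u y).1.b) x := hw (map_Fb (u := fun y => (u y).1) hu.1)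
    have h2 : Sm (fun y => (u y).1.f) x := map_Ff (DB := DB) (u := fun y => (u y).1) hu.1
    have h3 : Sm (fun y => (u y).2) x := hu.2
    have h4 : Sm (fun y => cmb (u y).1.f (cz l (u y).2)) x := by
      filter_upwards [h2, h3] with y hy2 hy3
      refine contDiffAt_pi.2 fun i => ContDiffAt.sum fun j _ => ContDiffAt.mul ?_ ?_
      · have h5 : ContDiffAt ℝ ∞ (fun y => czL l (u y).2) y :=
          (czL l).contDiff.contDiffAt.comp y hy3
        exact (contDiffAt_pi.1 h5) j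
      · have h6 := (contDiffAt_pi.1 ((contDiffAt_pi.1 hy2) j)) i
        exact Complex.ofRealCLM.contDiff.contDiffAt.comp y h6
    exact Sm.comp (f := fun p : (κ → ℂ) × (ι → ℂ) => lt Λ p.1 p.2)
      (Sm.of_contDiff (contDiff_lt Λ) _) (h1.prodMk h4)
  hPG f ξ hξ := by
    change lt Λ (w f.b) (cmb f.f (cz l ξ)) = lt Λ (w (ev (f, ξ)).b) (ev (f, ξ)).z
    rw [ev_b, ev_z' f ξ hξ]
  hom f ξ r := by
    change lt Λ (w f.b) (cmb f.f (cz l (r • ξ))) = r • lt Λ (w f.b) (cmb f.f (cz l ξ))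
    rw [cz_smul, cmb_smul_c, lt_real_right]
  c := c
  hc := hc
  low := fun {E} _ _ _ {u x} hu ξ => by
    change c * ‖ξ‖ ≤ ‖lt Λ (w (u x).b) (cmb (u x).f (cz l ξ))‖
    by_cases hξ : ξ = 0
    · rw [hξ, norm_zero, mul_zero]
      exact norm_nonneg _
    · have h0 : ‖ξ‖ ≠ 0 := norm_ne_zero_iff.2 hξ
      have h1 : ‖‖ξ‖⁻¹ • ξ‖ = 1 := by
        rw [norm_smul, norm_inv, norm_norm, inv_mul_cancel₀ h0]
      have h2 := hlow (map_Fb hu) (cmb (u x).f (cz l (‖ξ‖⁻¹ • ξ)))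
        (cplx_cmb (u x).isFr _) (uni_of_norm (u x).isFr h1)
      change c ≤ ‖lt Λ (w (u x).b) (cmb (u x).f (cz l (‖ξ‖⁻¹ • ξ)))‖ at h2
      rw [cz_smul, cmb_smul_c, lt_real_right, norm_smul, norm_inv, norm_norm] at h2
      have h3 : 0 < ‖ξ‖ := norm_pos_iff.2 hξ
      have h4 := mul_le_mul_of_nonneg_right h2 h3.le
      rwa [mul_comm ‖ξ‖⁻¹, mul_assoc, inv_mul_cancel₀ h0, mul_one] at h4
  eqΦ x t := by
    change lt Λ (w (φ (x.b, t))) x.z = Cor.ph (2 * Real.pi * t) • lt Λ (w x.b) x.z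
    rw [hwe, lt_smul_left]
  eqR x t := by
    change lt Λ (w x.b) (Cor.ph (2 * Real.pi * t) • x.z) =
      Cor.ph (2 * Real.pi * t) • lt Λ (w x.b) x.z
    rw [lt_smul_right]

end

end Vale.Agent.P231.SEG
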