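import Vale.Agent.P231.SEG.Opn
import Vale.Agent.P231.S3E479.Equi

/-!
# P231, stage 3, block SEG (10): the open set for a box of the unit tangent bundle
-/

set_option linter.unusedSectionVars false
set_option linter.unusedVariables false

open Bundle Manifold Set Filter Module Topology MeasureTheory Matrix
open scoped ContDiff Manifold Topology

namespace Vale.Agent.P231.SEG

open Vale.Agent.P234 Vale.Agent.P231 Vale.Agent.P231.Fm Vale.Agent.P231.W Vale.Agent.P231.H775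
  Vale.Agent.P231.WG Vale.Agent.P231.H584 Vale.Agent.P231.XC Vale.Agent.P231.X3

noncomputable section

variable {E : Type*} [NormedAddCommGroup E] [NormedSpace ℝ E]
  {M : Type*} [MetricSpace M] [ChartedSpace E M]
  [RiemannianBundle (fun x : M => TangentSpace 𝓘(ℝ, E) x)]
  {e : ∀ x : M, TangentSpace 𝓘(ℝ, E) x → M}
  [FiniteDimensional ℝ E] [IsManifold 𝓘(ℝ, E) ∞ M]
  [IsContMDiffRiemannianBundle 𝓘(ℝ, E) ∞ E (fun x : M => TangentSpace 𝓘(ℝ, E) x)]
  [CompactSpace M] [ConnectedSpace M] [IsRiemannianManifold 𝓘(ℝ, E) M]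
  {ι : Type} [Fintype ι] [DecidableEq ι] {P : UT E M → Matrix ι ι ℝ} {l n : ℕ} [NeZero l]

/-- the open set of a box of the unit tangent bundle -/
theorem exists_O_UT (F : Facts e) {D : ℝ} (hD : 0 < D) (hB : InjGE e D)
    (hdiam : ∀ p q : M, dist p q ≤ D) (hP : Pj (dUT E M) P l)
    (hinv : ∀ v t, P (phi F (v, t)) = P v) (B : Bt (dUT E M))
    (hdim : B.N + 2 * l < 2 * (n + 1)) :
    ∃ O : Set (UT E M), Co.IsO (dUT E M) O ∧ (∀ x, B.G x ∈ O) ∧
      (∀ x ∈ O, ∀ t, phi F (x, t) ∈ O) ∧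
      ∀ (h : Pj ((dUT E M).on O) P l) (φ₁ : UT E M × ℝ → UT E M)
        (_ : ∀ x t, φ₁ (x, t) = phi F (x, 2 * D * t)) (h1 : ∀ b t, P (φ₁ (b, t)) = P b)
        (h2 : (((dUT E M).on O).prod (Dif.lin ℝ)).Map ((dUT E M).on O) φ₁),
        Nonempty (LM (XC.seg h h1 h2) n) := by
  obtain ⟨k, H, hH⟩ := S3E.exists_eqMap F hD hB hdiam
  refine exists_O (T := 2 * D) (w := H) hP hinv (by positivity) hH.smooth (fun v t => ?_) B
    (fun x => hH.ne _) hdim
  rw [hH.equi]
  congr 1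
  have h1 : 2 * Real.pi * t / (2 * D) = Real.pi / D * t := by field_simp
  rw [h1, Cor.ph, Complex.exp_mul_I, Complex.ofReal_cos, Complex.ofReal_sin]

end

end Vale.Agent.P231.SEG
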