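import Vale.Agent.P231.SEG.AsmG
import Vale.Agent.P231.SEG.OUT
import Vale.Agent.P231.S3C.PX
import Vale.Agent.P231.H304.Alpha

/-!
# P231, stage 3, block SEG (11): the numbers of the good boxes of the unit tangent bundle
-/

set_option linter.unusedSectionVars false
set_option linter.unusedVariables false

open Bundle Manifold Set Filter Module Topology MeasureTheory Matrix
open scoped ContDiff Manifold Topology

namespace Vale.Agent.P231.SEG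

open Vale.Agent.P234 Vale.Agent.P231 Vale.Agent.P231.Fm Vale.Agent.P231.W Vale.Agent.P231.H775
  Vale.Agent.P231.WG Vale.Agent.P231.H584 Vale.Agent.P231.XC Vale.Agent.P231.X3

noncomputable section

variable {E : Type*} [NormedAddCommGroup E] [NormedSpace ℝ E]
  {M : Type*} [MetricSpace M] [ChartedSpace E M]
  [RiemannianBundle (fun x : M => TangentSpace 𝓘(ℝ, E) x)]
  {e : ∀ x : M, TangentSpace 𝓘(ℝ, E) x → M}
  [FiniteDimensional ℝ E] [IsManifold 𝓘(ℝ, E) ∞ M]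
  [IsContMDiffRiemannianBundle 𝓘(ℝ, E) ∞ E (fun x : M => TangentSpace 𝓘(ℝ, E) x)]
  [CompactSpace M] [ConnectedSpace M] [IsRiemannianManifold 𝓘(ℝ, E) M]
  {ι : Type} [Fintype ι] [DecidableEq ι] {P : UT E M → Matrix ι ι ℝ}

/-- **integrality of the numbers of the good boxes**, for any invariant projector of rank seven
on the unit tangent bundle -/
theorem seg_Z (F : Facts e) {D : ℝ} (hD : 0 < D) (hB : InjGE e D)
    (hdiam : ∀ p q : M, dist p q ≤ D) (hP : XC.Pj (dUT E M) P 7)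
    (hinv : ∀ v t, P (phi F (v, t)) = P v) (B : Bt (dUT E M))
    (hg : B.Good (isFlow_phi F hD hB hdiam)) :
    (B.N = 4 → ∃ n : ℤ, 28 * B.L (((2 * D)⁻¹ • (CV.alpha E M).d) ^ 2) +
        B.L (-XC.cF hP 2) = n) ∧
      (B.N = 8 → ∃ n : ℤ, 210 * B.L (((2 * D)⁻¹ • (CV.alpha E M).d) ^ 4) +
        45 * B.L (((2 * D)⁻¹ • (CV.alpha E M).d) ^ 2 * -XC.cF hP 2) +
        B.L ((-XC.cF hP 2) ^ 2 - XC.cF hP 4) = n) ∧
      (B.N = 12 → ∃ n : ℤ, 924 * B.L (((2 * D)⁻¹ • (CV.alpha E M).d) ^ 6) +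
        495 * B.L (((2 * D)⁻¹ • (CV.alpha E M).d) ^ 4 * -XC.cF hP 2) +
        66 * B.L (((2 * D)⁻¹ • (CV.alpha E M).d) ^ 2 *
          ((-XC.cF hP 2) ^ 2 - XC.cF hP 4)) +
        B.L ((-XC.cF hP 2) ^ 3 - 2 * (-XC.cF hP 2) * XC.cF hP 4 + -XC.cF hP 6) = n) := by
  have hT : (2 * D) ≠ 0 := by positivity
  have hα := CV.pull_phi_alpha (E := E) (M := M) F
  have hαo : (CV.alpha E M).sg = -CV.alpha E M := CV.isDeg_alpha.sg_of_odd (by norm_num)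
  refine ⟨fun hN => ?_, fun hN => ?_, fun hN => ?_⟩
  · obtain ⟨O, hO, hG, hi, hL⟩ := exists_O_UT (n := 9) F hD hB hdiam hP hinv B (by omega)
    obtain ⟨L⟩ := hL (pjO hP O) (ph1 (2 * D) (phi F)) (fun _ _ => rfl) (inv1 (2 * D) hinv)
      (mapO (isFlow_phi F hD hB hdiam) hi)
    exact num_two (h := isFlow_phi F hD hB hdiam) hP hinv hi hT hα hαo hg hO hG hN L
  · obtain ⟨O, hO, hG, hi, hL⟩ := exists_O_UT (n := 11) F hD hB hdiam hP hinv B (by omega)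
    obtain ⟨L⟩ := hL (pjO hP O) (ph1 (2 * D) (phi F)) (fun _ _ => rfl) (inv1 (2 * D) hinv)
      (mapO (isFlow_phi F hD hB hdiam) hi)
    exact num_four (h := isFlow_phi F hD hB hdiam) hP hinv hi hT hα hαo hg hO hG hN L
  · obtain ⟨O, hO, hG, hi, hL⟩ := exists_O_UT (n := 13) F hD hB hdiam hP hinv B (by omega)
    obtain ⟨L⟩ := hL (pjO hP O) (ph1 (2 * D) (phi F)) (fun _ _ => rfl) (inv1 (2 * D) hinv)
      (mapO (isFlow_phi F hD hB hdiam) hi)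
    exact num_six (h := isFlow_phi F hD hB hdiam) hP hinv hi hT hα hαo hg hO hG hN L

/-- the numbers for the null plane bundle -/
theorem seg_pj (F : Facts e) {D : ℝ} (hD : 0 < D) (hB : InjGE e D)
    (hdiam : ∀ p q : M, dist p q ≤ D) {X δ : ι → UT E M → E} {ε : ℝ}
    (h : S2N.Fam F hD hB hdiam 7 X δ ε) (B : Bt (dUT E M))
    (hg : B.Good (isFlow_phi F hD hB hdiam)) :
    (B.N = 4 → ∃ n : ℤ, 28 * B.L (((2 * D)⁻¹ • (CV.alpha E M).d) ^ 2) +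
        B.L (-XC.cF (S3C.pj h) 2) = n) ∧
      (B.N = 8 → ∃ n : ℤ, 210 * B.L (((2 * D)⁻¹ • (CV.alpha E M).d) ^ 4) +
        45 * B.L (((2 * D)⁻¹ • (CV.alpha E M).d) ^ 2 * -XC.cF (S3C.pj h) 2) +
        B.L ((-XC.cF (S3C.pj h) 2) ^ 2 - XC.cF (S3C.pj h) 4) = n) ∧
      (B.N = 12 → ∃ n : ℤ, 924 * B.L (((2 * D)⁻¹ • (CV.alpha E M).d) ^ 6) +
        495 * B.L (((2 * D)⁻¹ • (CV.alpha E M).d) ^ 4 * -XC.cF (S3C.pj h) 2) +
        66 * B.L (((2 * D)⁻¹ • (CV.alpha E M).d) ^ 2 *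
          ((-XC.cF (S3C.pj h) 2) ^ 2 - XC.cF (S3C.pj h) 4)) +
        B.L ((-XC.cF (S3C.pj h) 2) ^ 3 - 2 * (-XC.cF (S3C.pj h) 2) * XC.cF (S3C.pj h) 4 +
          -XC.cF (S3C.pj h) 6) = n) :=
  seg_Z F hD hB hdiam (S3C.pj h) (S3C.pX_phi F hD hB hdiam X δ ε) B hg

end

end Vale.Agent.P231.SEG
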