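import Vale.Agent.P231.SEG.LMx
import Vale.Agent.P231.SEG.Frm
import Vale.Agent.P231.SEG.Gen
import Vale.Agent.P231.H584.BoxT

/-!
# P231, stage 3, block SEG (9): the choice of the linear map and of the open set
-/

set_option linter.unusedSectionVars false
set_option linter.unusedVariables false

open MeasureTheory Matrix Set Module Filter Topology
open scoped ContDiff

namespace Vale.Agent.P231.SEG

open Vale.Agent.P231.Fm Vale.Agent.P231.W Vale.Agent.P231.H584 Vale.Agent.P231.Co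
  Vale.Agent.P231.WG Vale.Agent.P231.X3 Vale.Agent.P231.ChW Vale.Agent.P231.XC
open Vale.Agent.P231.Fm (Sm Dif Form Lam)

noncomputable section

variable {κ ι : Type} [Fintype κ] [Fintype ι] [DecidableEq ι] {n l : ℕ}
variable {X : Type*} {D : Dif X} {P : X → Matrix ι ι ℝ} {w : X → κ → ℂ}

/-- the set where the map has no zeros -/
def Os (P : X → Matrix ι ι ℝ) (w : X → κ → ℂ) (Λ : (κ × ι → ℂ) →ₗ[ℂ] (Fin n → ℂ)) (c : ℝ) :
    Set X :=
  {x | ∀ z : ι → ℂ, cplx (P x) *ᵥ z = z → Uni z → c < ‖lt Λ (w x) z‖}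

theorem lw_Os (Λ : (κ × ι → ℂ) →ₗ[ℂ] (Fin n → ℂ)) (c : ℝ) :
    Lw (D.on (Os P w Λ c)) P w Λ c := fun {E} _ _ _ {u x} hu z hz hz1 =>
  ((hu.2.self_of_nhds : u x ∈ Os P w Λ c) z hz hz1).le

theorem os_inv {Φ : X × ℝ → X} (hP : ∀ x t, P (Φ (x, t)) = P x) {T : ℝ}
    (hw : ∀ x t, w (Φ (x, t)) = Cor.ph (2 * Real.pi * t / T) • w x)
    (Λ : (κ × ι → ℂ) →ₗ[ℂ] (Fin n → ℂ)) (c : ℝ) :
    ∀ x ∈ Os P w Λ c, ∀ t, Φ (x, t) ∈ Os P w Λ c := fun x hx t z hz hz1 => by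
  rw [hP] at hz
  rw [hw, lt_smul_left, norm_smul]
  have h1 : ‖Cor.ph (2 * Real.pi * t / T)‖ = 1 := by
    have h2 := normSq_ph (2 * Real.pi * t / T)
    rw [Complex.normSq_eq_norm_sq] at h2
    nlinarith [norm_nonneg (Cor.ph (2 * Real.pi * t / T))]
  rw [h1, one_mul]
  exact hx z hz hz1

theorem isCompact_uni : IsCompact {z : ι → ℂ | Uni z} := by
  have h1 : ∀ z : ι → ℂ, Uni z → ‖z‖ ≤ 1 := by
    intro z hz
    have h2 : ∑ j, Complex.normSq (z j) = 1 := by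
      unfold Uni at hz
      simp only [← Complex.normSq_eq_conj_mul_self] at hz
      exact_mod_cast hz
    refine (pi_norm_le_iff_of_nonneg zero_le_one).2 fun j => ?_
    have h3 : Complex.normSq (z j) ≤ 1 := by
      rw [← h2]
      exact Finset.single_le_sum (f := fun j => Complex.normSq (z j))
        (fun i _ => Complex.normSq_nonneg _) (Finset.mem_univ j)
    rw [Complex.normSq_eq_norm_sq] at h3
    nlinarith [norm_nonneg (z j)]
  refine (isCompact_closedBall (0 : ι → ℂ) 1).of_isClosed_subset ?_ fun z hz => by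
    rw [mem_closedBall_zero_iff]
    exact h1 z hz
  have h2 : Continuous fun z : ι → ℂ => ∑ j, (starRingEnd ℂ) (z j) * z j := by
    refine continuous_finsetSum _ fun j _ => ?_
    exact (Complex.continuous_conj.comp (continuous_apply j)).mul (continuous_apply j)
  exact isClosed_eq h2 continuous_const

theorem continuousAt_proj (hP : SmM D P) {E : Type} [NormedAddCommGroup E] [NormedSpace ℝ E]
    [FiniteDimensional ℝ E] {u : E → X} {x : E} (hu : D.At u x) (z : ι → ℂ) :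
    ContinuousAt (fun p : E × (ι → ℂ) => cplx (P (u p.1)) *ᵥ p.2) (x, z) := by
  refine continuousAt_pi.2 fun i => ?_
  simp only [Matrix.mulVec, dotProduct, cplx_apply]
  refine tendsto_finsetSum _ fun j _ => ?_
  have h1 : ContinuousAt (fun y => P (u y) i j) x := ((hP i j).sm hu).continuousAt
  have h2 : ContinuousAt (fun p : E × (ι → ℂ) => P (u p.1) i j) (x, z) :=
    ContinuousAt.comp (f := fun p : E × (ι → ℂ) => p.1) (g := fun y => P (u y) i j) h1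
      continuousAt_fst
  have h3 : ContinuousAt (fun p : E × (ι → ℂ) => ((P (u p.1) i j : ℝ) : ℂ)) (x, z) :=
    Complex.continuous_ofReal.continuousAt.comp h2
  exact h3.mul ((continuous_apply j).continuousAt.comp continuousAt_snd)

theorem continuousAt_lt (hw : D.Map (Dif.lin (κ → ℂ)) w) (Λ : (κ × ι → ℂ) →ₗ[ℂ] (Fin n → ℂ))
    {E : Type} [NormedAddCommGroup E] [NormedSpace ℝ E]
    [FiniteDimensional ℝ E] {u : E → X} {x : E} (hu : D.At u x) (z : ι → ℂ) :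
    ContinuousAt (fun p : E × (ι → ℂ) => lt Λ (w (u p.1)) p.2) (x, z) := by
  have h1 : ContinuousAt (fun y => w (u y)) x := Sm.continuousAt (g := fun y => w (u y)) (hw hu)
  have h2 : ContinuousAt (fun p : E × (ι → ℂ) => w (u p.1)) (x, z) :=
    ContinuousAt.comp (f := fun p : E × (ι → ℂ) => p.1) (g := fun y => w (u y)) h1
      continuousAt_fst
  exact ContinuousAt.comp (f := fun p : E × (ι → ℂ) => (w (u p.1), p.2))
    (g := fun p : (κ → ℂ) × (ι → ℂ) => lt Λ p.1 p.2) (contDiff_lt Λ).continuous.continuousAt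
    (h2.prodMk continuousAt_snd)

/-- the set is open -/
theorem isO_Os (hP : SmM D P) (hw : D.Map (Dif.lin (κ → ℂ)) w)
    (Λ : (κ × ι → ℂ) →ₗ[ℂ] (Fin n → ℂ)) (c : ℝ) : IsO D (Os P w Λ c) :=
  ⟨fun {E} _ _ _ {u x} hu hx => by
    have h1 : ∀ z ∈ {z : ι → ℂ | Uni z}, ∀ᶠ p : E × (ι → ℂ) in 𝓝 (x, z),
        cplx (P (u p.1)) *ᵥ p.2 = p.2 → c < ‖lt Λ (w (u p.1)) p.2‖ := by
      intro z hz
      by_cases h2 : cplx (P (u x)) *ᵥ z = z
      · have h3 := hx z h2 hz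
        have h4 := (continuousAt_lt hw Λ hu z).norm
        filter_upwards [h4.eventually (lt_mem_nhds h3)] with p hp _ using hp
      · have h4 := (continuousAt_proj hP hu z).sub (continuousAt_snd (p := (x, z)))
        have h5 : (fun p : E × (ι → ℂ) => cplx (P (u p.1)) *ᵥ p.2 - p.2) (x, z) ≠ 0 :=
          sub_ne_zero.2 h2
        filter_upwards [h4.eventually_ne h5] with p hp h6
        exact absurd (sub_eq_zero.2 h6) hp
    have h2 := isCompact_uni.eventually_forall_of_forall_eventually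
      (P := fun (y : E) (z : ι → ℂ) => cplx (P (u y)) *ᵥ z = z → c < ‖lt Λ (w (u y)) z‖) h1
    filter_upwards [h2] with y hy z hz hz1
    exact hy z hz1 hz⟩

/-- the family of linear maps of a box -/
def Tl (u : κ → ℂ) (f : Fin l → ι → ℝ) : (Fin l → ℂ) →L[ℂ] (κ × ι → ℂ) :=
  ∑ j, (ContinuousLinearMap.proj (R := ℂ) (φ := fun _ : Fin l => ℂ) j).smulRight
    (tn u fun i => (f j i : ℂ))

theorem Tl_apply (u : κ → ℂ) (f : Fin l → ι → ℝ) (ξ : Fin l → ℂ) :
    Tl u f ξ = tn u (cmb f ξ) := by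
  funext p
  simp only [Tl, _root_.sum_apply, ContinuousLinearMap.smulRight_apply, ContinuousLinearMap.proj_apply,
    Finset.sum_apply, Pi.smul_apply, smul_eq_mul, tn, cmb, Finset.mul_sum]
  refine Finset.sum_congr rfl fun j _ => ?_
  ring

theorem cmb_ne_zero {A : Matrix ι ι ℝ} {f : Fin l → ι → ℝ} (h : IsFr A f) {ξ : Fin l → ℂ}
    (hξ : ξ ≠ 0) : cmb f ξ ≠ 0 := fun h0 => by
  have h1 := uni_cmb h ξ
  rw [h0] at h1
  simp only [Pi.zero_apply, mul_zero, Finset.sum_const_zero, ← Complex.normSq_eq_conj_mul_self]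
    at h1
  have h2 : ∑ j, Complex.normSq (ξ j) = 0 := by exact_mod_cast h1.symm
  rw [Finset.sum_eq_zero_iff_of_nonneg (fun j _ => Complex.normSq_nonneg _)] at h2
  exact hξ (funext fun j => Complex.normSq_eq_zero.1 (h2 j (Finset.mem_univ j)))

theorem Tl_inj {A : Matrix ι ι ℝ} {u : κ → ℂ} (hu : u ≠ 0) {f : Fin l → ι → ℝ} (h : IsFr A f) :
    Function.Injective (Tl u f) := by
  refine (injective_iff_map_eq_zero _).2 fun ξ hξ => ?_
  by_contra h0
  rw [Tl_apply] at hξ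
  exact tn_ne_zero hu (cmb_ne_zero h h0) hξ

/-- **the choice of the linear map** -/
theorem exists_lin (hP : Pj D P l) (hw : D.Map (Dif.lin (κ → ℂ)) w) (B : Bt D)
    (hw0 : ∀ x, w (B.G x) ≠ 0) (hdim : B.N + 2 * l < 2 * (n + 1)) :
    ∃ (Λ : (κ × ι → ℂ) →ₗ[ℂ] (Fin n → ℂ)) (c : ℝ), 0 < c ∧ ∀ x, B.G x ∈ Os P w Λ c := by
  have hne : B.A.Nonempty := by
    obtain ⟨x, hx, _⟩ := B.rng ⟨0, rfl⟩
    exact ⟨x, hx⟩
  obtain ⟨U, hU, hAU, f, hf, hfG⟩ := exists_frame_box hP B.plot B.cpt B.cvx hne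
  have hfr : ∀ x ∈ U, IsFr (P (B.G x)) (f x).f := fun x hx => by
    have h1 : (f x).b = B.G x := (hfG x hx).self_of_nhds
    rw [← h1]
    exact (f x).isFr
  have hT : ContDiffOn ℝ ∞ (fun x => Tl (w (B.G x)) (f x).f) U := by
    intro x hx
    have h1 : ContDiffAt ℝ ∞ (fun y => w (B.G y)) x :=
      Sm.contDiffAt (g := fun y => w (B.G y)) (hw (B.plot x))
    have h2 : ContDiffAt ℝ ∞ (fun y => (f y).f) x :=
      Sm.contDiffAt (g := fun y => (f y).f) (map_Ff (hf x hx))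
    refine ContDiffAt.contDiffWithinAt (ContDiffAt.sum fun j _ => ?_)
    have h3 : ContDiffAt ℝ ∞ (fun y => tn (w (B.G y)) fun i => ((f y).f j i : ℂ)) x := by
      refine contDiff_tn.contDiffAt.comp x (f := fun y => (w (B.G y), fun i => ((f y).f j i : ℂ)))
        (h1.prodMk (contDiffAt_pi.2 fun i => ?_))
      exact Complex.ofRealCLM.contDiff.contDiffAt.comp x
        ((contDiffAt_pi.1 ((contDiffAt_pi.1 h2) j)) i)
    let S : (κ × ι → ℂ) →L[ℝ] ((Fin l → ℂ) →L[ℂ] (κ × ι → ℂ)) :=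
      ((ContinuousLinearMap.smulRightL ℂ (Fin l → ℂ) (κ × ι → ℂ))
        (ContinuousLinearMap.proj (R := ℂ) (φ := fun _ : Fin l => ℂ) j)).restrictScalars ℝ
    exact S.contDiff.contDiffAt.comp x h3
  obtain ⟨Λ, hΛ⟩ := exists_generic hU hT hAU (fun x hx => Tl_inj (hw0 x) (hfr x (hAU hx)))
    (by rw [B.finrank_E]; exact hdim)
  have hΛ0 : ∀ x ∈ B.A, ∀ z : ι → ℂ, cplx (P (B.G x)) *ᵥ z = z → Uni z →
      lt Λ (w (B.G x)) z ≠ 0 := by
    intro x hx z hz hz1 h0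
    have h1 := (hfr x (hAU hx)).eq (hP.idem _) (hP.symm _) (hP.tr _)
    have h2 : cmb (f x).f (cof (f x).f z) = z := by
      rw [cmb_cof, ← h1, hz]
    have h3 : Λ (Tl (w (B.G x)) (f x).f (cof (f x).f z)) =
        Λ (Tl (w (B.G x)) (f x).f 0) := by
      rw [map_zero, map_zero, Tl_apply, h2]
      exact h0
    have h4 : cof (f x).f z = 0 := hΛ x hx h3
    rw [h4] at h2
    have h5 : cmb (f x).f (0 : Fin l → ℂ) = 0 := by
      funext i
      simp [cmb]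
    rw [h5] at h2
    rw [← h2] at hz1
    unfold Uni at hz1
    simp at hz1
  -- the compact set
  set K : Set (B.E × (ι → ℂ)) := {p | p.1 ∈ B.A ∧ Uni p.2 ∧ cplx (P (B.G p.1)) *ᵥ p.2 = p.2}
    with hK
  have hKc : IsCompact K := by
    have h1 : K = (B.A ×ˢ {z : ι → ℂ | Uni z}) ∩
        {p | cplx (P (B.G p.1)) *ᵥ p.2 = p.2} := by
      ext p
      simp only [hK, Set.mem_ofPred_eq, mem_inter_iff, mem_prod, and_assoc]
    rw [h1]
    refine (B.cpt.prod isCompact_uni).inter_right (isClosed_eq ?_ continuous_snd)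
    exact continuous_iff_continuousAt.2 fun p => continuousAt_proj hP.sm (B.plot p.1) p.2
  have hcont : Continuous fun p : B.E × (ι → ℂ) => ‖lt Λ (w (B.G p.1)) p.2‖ :=
    continuous_iff_continuousAt.2 fun p => (continuousAt_lt hw Λ (B.plot p.1) p.2).norm
  obtain ⟨c, hc, hcK⟩ : ∃ c : ℝ, 0 < c ∧ ∀ p ∈ K, c ≤ ‖lt Λ (w (B.G p.1)) p.2‖ := by
    rcases K.eq_empty_or_nonempty with h1 | h1
    · exact ⟨1, one_pos, fun p hp => by rw [h1] at hp; exact hp.elim⟩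
    · obtain ⟨p, hp, hmin⟩ := hKc.exists_isMinOn h1 hcont.continuousOn
      refine ⟨_, norm_pos_iff.2 (hΛ0 p.1 hp.1 p.2 hp.2.2 hp.2.1), fun q hq => hmin hq⟩
  refine ⟨Λ, c / 2, half_pos hc, fun x z hz hz1 => ?_⟩
  obtain ⟨y, hy, hyG⟩ := B.rng ⟨x, rfl⟩
  rw [← hyG] at hz ⊢
  have h1 := hcK (y, z) ⟨hy, hz1, hz⟩
  exact (half_lt_self hc).trans_le h1

/-- **the open set, with an equivariant map over it** -/
theorem exists_O [NeZero l] (hP : Pj D P l) {Φ : X × ℝ → X} (hinv : ∀ x t, P (Φ (x, t)) = P x)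
    {T : ℝ} (hT : T ≠ 0) (hw : D.Map (Dif.lin (κ → ℂ)) w)
    (hwe : ∀ x t, w (Φ (x, t)) = Cor.ph (2 * Real.pi * t / T) • w x) (B : Bt D)
    (hw0 : ∀ x, w (B.G x) ≠ 0) (hdim : B.N + 2 * l < 2 * (n + 1)) :
    ∃ O : Set X, IsO D O ∧ (∀ x, B.G x ∈ O) ∧ (∀ x ∈ O, ∀ t, Φ (x, t) ∈ O) ∧
      ∀ (h : Pj (D.on O) P l) (φ₁ : X × ℝ → X) (_ : ∀ x t, φ₁ (x, t) = Φ (x, T * t))
        (h1 : ∀ b t, P (φ₁ (b, t)) = P b)
        (h2 : ((D.on O).prod (Dif.lin ℝ)).Map (D.on O) φ₁), Nonempty (LM (XC.seg h h1 h2) n) := by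
  obtain ⟨Λ, c, hc, hG⟩ := exists_lin (n := n) hP hw B hw0 hdim
  refine ⟨Os P w Λ c, isO_Os hP.sm hw Λ c, hG, os_inv hinv hwe Λ c, ?_⟩
  intro h φ₁ hφ₁ h1 h2
  have h3 : (D.on (Os P w Λ c)).Map (Dif.lin (κ → ℂ)) w := fun hu => hw hu.1
  exact ⟨LMx Λ h h1 h2 h3 (fun b t => by
    rw [hφ₁, hwe]
    congr 2
    field_simp) hc (lw_Os Λ c)⟩

end

end Vale.Agent.P231.SEG
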