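import Vale.Agent.P231.Co.BunPb
import Vale.Agent.P231.WG.Fibre

/-!
# P231, stage 3, block SEG (1): fibre integrals and flows of the fibres
-/

set_option linter.unusedSectionVars false
set_option linter.unusedVariables false

open MeasureTheory Set Module Filter Topology
open scoped ContDiff

namespace Vale.Agent.P231.SEG

open Vale.Agent.P231.Fm Vale.Agent.P231.W Vale.Agent.P231.H584 Vale.Agent.P231.Co
  Vale.Agent.P231.WG
open Vale.Agent.P231.Fm (Sm Dif Form Lam)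

variable {B S Fr : Type*} {DB : Dif B} {DS : Dif S} {DF : Dif Fr}
variable {F : Type} [NormedAddCommGroup F] [InnerProductSpace ℝ F] [FiniteDimensional ℝ F]

/-- a one parameter family of rotations whose generator has no kernel -/
structure VR (ρ : ℝ → F →L[ℝ] F) (X : F →L[ℝ] F) : Prop where
  rt : Rt (Dif.lin ℝ) ρ
  zero : ρ 0 = ContinuousLinearMap.id ℝ F
  der : HasFDerivAt ρ ((1 : ℝ →L[ℝ] ℝ).smulRight X) 0
  inj : ∀ ξ, X ξ = 0 → ξ = 0

theorem rt_snd {ρ : ℝ → F →L[ℝ] F} (h : Rt (Dif.lin ℝ) ρ) :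
    Rt (DF.prod (Dif.lin ℝ)) (fun p : Fr × ℝ => ρ p.2) where
  map := fun hu => h.map hu.2
  iso := fun {E} _ _ _ {u x} hu ξ => h.iso (u := fun y => (u y).2) hu.2 ξ
  det := fun {E} _ _ _ {u x} hu => h.det (u := fun y => (u y).2) hu.2

section Iprod

variable {ρ : ℝ → F →L[ℝ] F} {X : F →L[ℝ] F}

/-- a form which is basic for the rotations is annihilated by the generator -/
theorem iprod_of_rot (hρ : VR ρ X) {θ : Form (D1 DF F)}
    (hθ : Form.pull (am Prod.fst fun p : Fr × ℝ => ρ p.2)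
      (map_am (Dif.map_fst (D := DF) (D' := Dif.lin ℝ)) (rt_snd hρ.rt)) θ =
      Form.pull (am Prod.fst fun _ : Fr × ℝ => ContinuousLinearMap.id ℝ F)
        (map_am (Dif.map_fst (D := DF) (D' := Dif.lin ℝ)) rt_id) θ)
    {E : Type} [NormedAddCommGroup E] [NormedSpace ℝ E] [FiniteDimensional ℝ E]
    {u : E → Fr} {x : E} (hu : DF.At u x) (ξ : F) :
    iprod ((0, X ξ) : E × F) (θ.val (cylF u) (x, ξ)) = 0 := by
  set U : (E × F) × ℝ → (Fr × ℝ) × F := fun p => ((u p.1.1, p.2), p.1.2) with hU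
  set z : (E × F) × ℝ := ((x, ξ), 0) with hz
  have hUz : (D1 (DF.prod (Dif.lin ℝ)) F).At U z := by
    refine ⟨⟨?_, Sm.of_contDiff (g := fun p : (E × F) × ℝ => p.2) contDiff_snd _⟩,
      Sm.of_contDiff (g := fun p : (E × F) × ℝ => p.1.2) (by fun_prop) _⟩
    exact DF.comp (u := u) (g := fun p : (E × F) × ℝ => p.1.1) (x := z) hu
      (Sm.of_contDiff (by fun_prop) _)
  set k : (E × F) × ℝ → E × F := fun p => (p.1.1, ρ p.2 p.1.2) with hk
  have hρs : Sm ρ 0 := hρ.rt.map (u := fun t : ℝ => t) (x := 0) (Sm.of_contDiff contDiff_id _)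
  have hks : Sm k z := by
    refine Sm.prodMk (Sm.of_contDiff (by fun_prop) _) ?_
    refine sm_clm (g := fun p : (E × F) × ℝ => ρ p.2) ?_ (Sm.of_contDiff (by fun_prop) _)
    exact Sm.comp (f := ρ) (g := fun p : (E × F) × ℝ => p.2) (x := z) hρs
      (Sm.of_contDiff contDiff_snd _)
  have hkz : k z = (x, ξ) := by
    simp only [hk, hz, hρ.zero]
    rfl
  have h1 := congrArg (fun f : Form (D1 (DF.prod (Dif.lin ℝ)) F) => f.val U z) hθ
  change (Form.pull (am Prod.fst fun p : Fr × ℝ => ρ p.2)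
      (map_am (Dif.map_fst (D := DF) (D' := Dif.lin ℝ)) (rt_snd hρ.rt)) θ).val U z =
      (Form.pull (am Prod.fst fun _ : Fr × ℝ => ContinuousLinearMap.id ℝ F)
        (map_am (Dif.map_fst (D := DF) (D' := Dif.lin ℝ)) rt_id) θ).val U z at h1
  rw [Form.pull_val _ _ hUz, Form.pull_val _ _ hUz] at h1
  have e1 : (am Prod.fst fun p : Fr × ℝ => ρ p.2) ∘ U = cylF u ∘ k := rfl
  have e2 : (am Prod.fst fun _ : Fr × ℝ => ContinuousLinearMap.id ℝ F) ∘ U =
      cylF u ∘ (Prod.fst : (E × F) × ℝ → E × F) := rfl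
  rw [e1, e2, θ.nat (u := cylF u) (g := k) (x := z) (by rw [hkz]; exact cylF_at hu ξ) hks,
    θ.nat (u := cylF u) (g := (Prod.fst : (E × F) × ℝ → E × F)) (x := z) (cylF_at hu ξ)
      (Sm.of_contDiff contDiff_fst _), hkz, fderiv_fst] at h1
  set w := θ.val (cylF u) (x, ξ) with hw
  have hder : HasFDerivAt k (((ContinuousLinearMap.fst ℝ E F).comp
      (ContinuousLinearMap.fst ℝ (E × F) ℝ)).prod
      ((ContinuousLinearMap.snd ℝ E F).comp (ContinuousLinearMap.fst ℝ (E × F) ℝ) +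
        (ContinuousLinearMap.snd ℝ (E × F) ℝ).smulRight (X ξ))) z := by
    refine HasFDerivAt.prodMk ?_ ?_
    · exact ((ContinuousLinearMap.fst ℝ E F).comp
        (ContinuousLinearMap.fst ℝ (E × F) ℝ)).hasFDerivAt
    · have g1 : HasFDerivAt (fun p : (E × F) × ℝ => ρ p.2)
          (((1 : ℝ →L[ℝ] ℝ).smulRight X).comp (ContinuousLinearMap.snd ℝ (E × F) ℝ)) z :=
        HasFDerivAt.comp z (f := fun p : (E × F) × ℝ => p.2) (g := ρ) hρ.der hasFDerivAt_snd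
      have g2 : HasFDerivAt (fun p : (E × F) × ℝ => p.1.2)
          ((ContinuousLinearMap.snd ℝ E F).comp (ContinuousLinearMap.fst ℝ (E × F) ℝ)) z :=
        ((ContinuousLinearMap.snd ℝ E F).comp (ContinuousLinearMap.fst ℝ (E × F) ℝ)).hasFDerivAt
      have g3 := g1.clm_apply g2
      refine g3.congr_fderiv ?_
      ext v
      · simp [hz, hρ.zero]
      · simp [hz, hρ.zero]
      · simp [hz, hρ.zero]
  rw [hder.fderiv] at h1
  have h2 := congrArg (iprod (((0, 0), 1) : (E × F) × ℝ)) h1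
  rw [pull_iprod, pull_iprod] at h2
  have e3 : (((ContinuousLinearMap.fst ℝ E F).comp
      (ContinuousLinearMap.fst ℝ (E × F) ℝ)).prod
      ((ContinuousLinearMap.snd ℝ E F).comp (ContinuousLinearMap.fst ℝ (E × F) ℝ) +
        (ContinuousLinearMap.snd ℝ (E × F) ℝ).smulRight (X ξ))) (((0, 0), 1) : (E × F) × ℝ) =
        ((0, X ξ) : E × F) := by
    simp
  have e4 : (ContinuousLinearMap.fst ℝ (E × F) ℝ) (((0, 0), 1) : (E × F) × ℝ) = 0 := rfl
  rw [e3, e4, Vale.Agent.P231.Q.iprod_zero_left, map_zero] at h2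
  have h3 := congrArg (Fm.pull (ContinuousLinearMap.inl ℝ (E × F) ℝ)) h2
  rw [map_zero, ← pull_comp_apply] at h3
  have e5 : (((ContinuousLinearMap.fst ℝ E F).comp
      (ContinuousLinearMap.fst ℝ (E × F) ℝ)).prod
      ((ContinuousLinearMap.snd ℝ E F).comp (ContinuousLinearMap.fst ℝ (E × F) ℝ) +
        (ContinuousLinearMap.snd ℝ (E × F) ℝ).smulRight (X ξ))).comp
      (ContinuousLinearMap.inl ℝ (E × F) ℝ) = ContinuousLinearMap.id ℝ (E × F) := by
    ext v <;> simp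
  rw [e5, pull_id] at h3
  exact h3

end Iprod

section SIB

variable [MeasurableSpace F] [BorelSpace F] {m : ℕ} (o : OrthonormalBasis (Fin m) ℝ F)
variable {π : S → B} {q : Fr → B} {ev : Fr × F → S}
variable {ρ : ℝ → F →L[ℝ] F} {X : F →L[ℝ] F}

/-- the flow `R` in a frame -/
theorem pull_am_ev (h : Bun DB DS DF F π q ev) (hρ : Rt (Dif.lin ℝ) ρ) {R : S × ℝ → S}
    (hR : (DS.prod (Dif.lin ℝ)).Map DS R) (hev : ∀ f ξ t, ‖ξ‖ = 1 → R (ev (f, ξ), t) = ev (f, ρ t ξ))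
    (w : Form DS) {E : Type} [NormedAddCommGroup E] [NormedSpace ℝ E] [FiniteDimensional ℝ E]
    {u : E → (Fr × ℝ) × F} {x : E} (hu : (SB (DF.prod (Dif.lin ℝ)) F).At u x) :
    (Form.pull (am Prod.fst fun p : Fr × ℝ => ρ p.2)
      (map_amS (Dif.map_fst (D := DF) (D' := Dif.lin ℝ)) (rt_snd hρ))
      (Form.pull ev h.hev w)).val u x =
      (Form.pull R hR w).val (fun y => (ev ((u y).1.1, (u y).2), (u y).1.2)) x := by
  have h1 : (SB DF F).At (fun y => ((u y).1.1, (u y).2)) x :=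
    ⟨⟨hu.1.1.1, hu.1.2⟩, hu.2⟩
  have h2 : (DS.prod (Dif.lin ℝ)).At (fun y => (ev ((u y).1.1, (u y).2), (u y).1.2)) x :=
    ⟨h.hev h1, hu.1.1.2⟩
  have h3 : (SB DF F).At ((am Prod.fst fun p : Fr × ℝ => ρ p.2) ∘ u) x :=
    map_amS (Dif.map_fst (D := DF) (D' := Dif.lin ℝ)) (rt_snd hρ) hu
  rw [Form.pull_val _ _ hu, Form.pull_val _ _ h3, Form.pull_val _ _ h2]
  refine w.congr (h.hev h3) ?_
  filter_upwards [hu.2] with y hy
  exact (hev _ _ _ hy).symm

/-- **fibre integrals of forms which are basic for a flow in the fibres vanish** -/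
theorem SI_eq_zero_of_basic (h : Bun DB DS DF F π q ev) (hρ : VR ρ X) {R : S × ℝ → S}
    (hR : (DS.prod (Dif.lin ℝ)).Map DS R) (hev : ∀ f ξ t, ‖ξ‖ = 1 → R (ev (f, ξ), t) = ev (f, ρ t ξ))
    {w : Form DS} (hw : Basic R hR w) : h.SI o w = 0 := by
  refine pull_inj h.hq ?_
  rw [h.pull_SI o, pull_zero]
  set σ := Form.pull ev h.hev w with hσ
  have hS : Form.pull (am Prod.fst fun p : Fr × ℝ => ρ p.2)
      (map_amS (Dif.map_fst (D := DF) (D' := Dif.lin ℝ)) (rt_snd hρ.rt)) σ =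
      Form.pull (am Prod.fst fun _ : Fr × ℝ => ContinuousLinearMap.id ℝ F)
        (map_amS (Dif.map_fst (D := DF) (D' := Dif.lin ℝ)) rt_id) σ := by
    refine Form.ext_val fun E _ _ _ u x hu => ?_
    have h1 : (SB DF F).At (fun y => ((u y).1.1, (u y).2)) x :=
      ⟨⟨hu.1.1.1, hu.1.2⟩, hu.2⟩
    have h2 : (DS.prod (Dif.lin ℝ)).At (fun y => (ev ((u y).1.1, (u y).2), (u y).1.2)) x :=
      ⟨h.hev h1, hu.1.1.2⟩
    have h3 : (SB DF F).At
        ((am Prod.fst fun _ : Fr × ℝ => ContinuousLinearMap.id ℝ F) ∘ u) x := h1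
    rw [pull_am_ev h hρ.rt hR hev w hu, hw, pr, Form.pull_val Dif.map_fst _ h2,
      Form.pull_val _ _ hu, hσ, Form.pull_val _ _ h3]
    rfl
  have hθ : Form.pull (am Prod.fst fun p : Fr × ℝ => ρ p.2)
      (map_am (Dif.map_fst (D := DF) (D' := Dif.lin ℝ)) (rt_snd hρ.rt)) (Co.dx σ) =
      Form.pull (am Prod.fst fun _ : Fr × ℝ => ContinuousLinearMap.id ℝ F)
        (map_am (Dif.map_fst (D := DF) (D' := Dif.lin ℝ)) rt_id) (Co.dx σ) := by
    rw [am_dx (Dif.map_fst (D := DF) (D' := Dif.lin ℝ)) (rt_snd hρ.rt),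
      am_dx (Dif.map_fst (D := DF) (D' := Dif.lin ℝ)) rt_id, hS]
  refine Form.ext_val fun E _ _ _ u x hu => ?_
  rw [si, Form.fi_val (vc_of_van (vc_dx _)) hu, Form.zero_val, fib]
  refine integral_eq_zero_of_ae (Eventually.of_forall fun ξ => ?_)
  change slice _ _ = 0
  by_cases hξ : ξ = 0
  · have h2 : (Co.dx σ).val (cylF u) (x, ξ) = 0 := by
      rw [Co.dx, Form.mx_val]
      rcases (supp_chf (D := DF) (F := F)).d.out (cylF_at hu ξ) with h3 | h3
      · exact absurd hξ h3.self_of_nhds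
      · rw [h3.self_of_nhds, zero_mul]
    rw [h2, map_zero]
  · have h3 := iprod_of_rot hρ hθ hu ξ
    have h4 := slice_eq_zero o.toBasis (z := X ξ) (fun h5 => hξ (hρ.inj ξ h5)) h3
    rw [OrthonormalBasis.coe_toBasis] at h4
    exact h4

theorem quo_cyl (hq : IsQuo DF DB q) : IsQuo (DF.prod (Dif.lin ℝ)) (DB.prod (Dif.lin ℝ))
    (fun p : Fr × ℝ => (q p.1, p.2)) where
  map := map_cyl hq.map
  lift := fun {E} _ _ _ {u x} hu => by
    obtain ⟨f, hf, hqf⟩ := hq.lift hu.1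
    exact ⟨fun y => (f y, (u y).2), ⟨hf, hu.2⟩, hqf.mono fun y hy => Prod.ext hy rfl⟩

/-- **fibre integrals of equivariant forms are basic** -/
theorem basic_SI (h : Bun DB DS DF F π q ev) (hρ : Rt (Dif.lin ℝ) ρ) {R : S × ℝ → S}
    (hR : (DS.prod (Dif.lin ℝ)).Map DS R) (hev : ∀ f ξ t, ‖ξ‖ = 1 → R (ev (f, ξ), t) = ev (f, ρ t ξ))
    {φ : B × ℝ → B} (hφ : (DB.prod (Dif.lin ℝ)).Map DB φ) {Φ : S × ℝ → S}
    (hΦ : (DS.prod (Dif.lin ℝ)).Map DS Φ) {φF : Fr × ℝ → Fr}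
    (hφF : (DF.prod (Dif.lin ℝ)).Map DF φF) (hqφ : ∀ f t, q (φF (f, t)) = φ (q f, t))
    (hΦe : ∀ f ξ t, ‖ξ‖ = 1 → Φ (ev (f, ξ), t) = ev (φF (f, t), ξ)) {w : Form DS}
    (hw : Form.pull Φ hΦ w = Form.pull R hR w) : Basic φ hφ (h.SI o w) := by
  refine pull_inj (quo_cyl h.hq) ?_
  have k1 : (DF.prod (Dif.lin ℝ)).Map DB (fun p : Fr × ℝ => q (φF p)) := fun hu => h.hq.map (hφF hu)
  have k2 : (DF.prod (Dif.lin ℝ)).Map DB (fun p : Fr × ℝ => q p.1) :=
    fun hu => h.hq.map (Dif.map_fst hu)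
  rw [pull_pull (k := fun p : Fr × ℝ => q (φF p)) (quo_cyl h.hq).map hφ k1
    (fun p => (hqφ p.1 p.2).symm), pr, pull_pull (k := fun p : Fr × ℝ => q p.1)
    (quo_cyl h.hq).map Dif.map_fst k2 (fun p => rfl),
    ← pull_pull (k := fun p : Fr × ℝ => q (φF p)) hφF h.hq.map k1 (fun p => rfl),
    ← pull_pull (k := fun p : Fr × ℝ => q p.1) Dif.map_fst h.hq.map k2 (fun p => rfl),
    h.pull_SI o, ← si_nat o hφF, ← am_si o Dif.map_fst (rt_snd hρ)]
  congr 1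
  refine Form.ext_val fun E _ _ _ u x hu => ?_
  have h1 : (SB DF F).At (fun y => ((u y).1.1, (u y).2)) x :=
    ⟨⟨hu.1.1.1, hu.1.2⟩, hu.2⟩
  have h2 : (DS.prod (Dif.lin ℝ)).At (fun y => (ev ((u y).1.1, (u y).2), (u y).1.2)) x :=
    ⟨h.hev h1, hu.1.1.2⟩
  rw [pull_am_ev h hρ hR hev w hu, ← hw, Form.pull_val _ _ h2, Form.pull_val _ _ hu,
    Form.pull_val _ _ (map_SB hφF hu)]
  refine w.congr (h.hev (map_SB hφF hu)) ?_
  filter_upwards [hu.2] with y hy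
  exact (hΦe _ _ _ hy).symm

/-- fibre integrals of basic forms are basic -/
theorem basic_SI' (h : Bun DB DS DF F π q ev)
    {φ : B × ℝ → B} (hφ : (DB.prod (Dif.lin ℝ)).Map DB φ) {Φ : S × ℝ → S}
    (hΦ : (DS.prod (Dif.lin ℝ)).Map DS Φ) {φF : Fr × ℝ → Fr}
    (hφF : (DF.prod (Dif.lin ℝ)).Map DF φF) (hqφ : ∀ f t, q (φF (f, t)) = φ (q f, t))
    (hΦe : ∀ f ξ t, ‖ξ‖ = 1 → Φ (ev (f, ξ), t) = ev (φF (f, t), ξ)) {w : Form DS}
    (hw : Basic Φ hΦ w) : Basic φ hφ (h.SI o w) :=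
  basic_SI o h (ρ := fun _ => ContinuousLinearMap.id ℝ F) rt_id (R := Prod.fst) Dif.map_fst
    (fun _ _ _ _ => rfl) hφ hΦ hφF hqφ hΦe hw

end SIB

end Vale.Agent.P231.SEG
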